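import Mathlib

/-!
The quartic Salem number `beta = 1.8832...`, root of `x^4 - 2 x^3 + x^2 - 2 x + 1`,
its conjugate `zeta` on the unit circle, and the facts about them that the proof needs.
-/

namespace Vale.Agent.P105

open Polynomial

/-- `√2`. -/
noncomputable def r2 : ℝ := Real.sqrt 2

/-- `α = 1 + √2 = β + 1/β`. -/
noncomputable def alpha : ℝ := 1 + r2

/-- The conjugate `α' = 1 - √2 = ζ + 1/ζ`. -/
noncomputable def alpha' : ℝ := 1 - r2

/-- `√(α² - 4)`. -/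
noncomputable def sqD : ℝ := Real.sqrt (alpha ^ 2 - 4)

/-- The Salem number `β`. -/
noncomputable def beta : ℝ := (alpha + sqD) / 2

/-- The conjugate `ζ` of `β` on the unit circle. -/
noncomputable def zeta : ℂ := ⟨alpha' / 2, Real.sqrt (4 - alpha' ^ 2) / 2⟩

lemma r2_sq : r2 * r2 = 2 := Real.mul_self_sqrt (by norm_num)

lemma r2_lb : 141 / 100 ≤ r2 := by
  rw [r2, Real.le_sqrt (by norm_num) (by norm_num)]; norm_num

lemma r2_ub : r2 ≤ 142 / 100 := by
  rw [r2, Real.sqrt_le_iff]; norm_num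

lemma alpha_sq_sub : alpha ^ 2 - 4 = 2 * r2 - 1 := by
  have := r2_sq; unfold alpha; nlinarith

lemma sqD_sq : sqD * sqD = 2 * r2 - 1 := by
  rw [sqD, Real.mul_self_sqrt] <;> have := r2_lb <;> have := alpha_sq_sub <;> linarith

lemma sqD_lb : 134 / 100 ≤ sqD := by
  rw [sqD, Real.le_sqrt (by norm_num)] <;>
    have := r2_lb <;> have := alpha_sq_sub <;> linarith

lemma sqD_ub : sqD ≤ 136 / 100 := by
  rw [sqD, Real.sqrt_le_iff]
  have := r2_ub; have := alpha_sq_sub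
  constructor <;> linarith

lemma beta_lb : 187 / 100 ≤ beta := by
  unfold beta alpha; have := r2_lb; have := sqD_lb; linarith

lemma beta_ub : beta ≤ 19 / 10 := by
  unfold beta alpha; have := r2_ub; have := sqD_ub; linarith

lemma beta_pos : 0 < beta := by linarith [beta_lb]

lemma one_lt_beta : 1 < beta := by linarith [beta_lb]

lemma beta_ne_zero : beta ≠ 0 := beta_pos.ne'

lemma beta_quad : beta * beta = alpha * beta - 1 := by
  have h := sqD_sq; have := r2_sq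
  unfold beta alpha; nlinarith

lemma beta_inv : beta⁻¹ = (alpha - sqD) / 2 := by
  apply inv_eq_of_mul_eq_one_right
  have h := sqD_sq; have := r2_sq
  unfold beta alpha; nlinarith

lemma beta_poly : beta ^ 4 - 2 * beta ^ 3 + beta ^ 2 - 2 * beta + 1 = 0 := by
  have h1 := beta_quad
  have h2 : (beta * beta + 1 - beta) * (beta * beta + 1 - beta) = 2 * (beta * beta) := by
    have : beta * beta + 1 - beta = r2 * beta := by rw [h1, alpha]; ring
    rw [this]; linear_combination beta * beta * r2_sq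
  linear_combination h2

lemma alpha'_sq_le : alpha' ^ 2 ≤ 1 := by
  have := r2_lb; have := r2_ub; unfold alpha'; nlinarith

lemma zeta_norm : ‖zeta‖ = 1 := by
  have h : Real.sqrt (4 - alpha' ^ 2) * Real.sqrt (4 - alpha' ^ 2) = 4 - alpha' ^ 2 :=
    Real.mul_self_sqrt (by linarith [alpha'_sq_le])
  rw [Complex.norm_def]
  have : Complex.normSq zeta = 1 := by
    rw [Complex.normSq_apply]; simp only [zeta]; nlinarith
  rw [this, Real.sqrt_one]

lemma zeta_ne_zero : zeta ≠ 0 := by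
  intro h; have := zeta_norm; rw [h] at this; simp at this

lemma zeta_quad : zeta * zeta = (alpha' : ℂ) * zeta - 1 := by
  have h : Real.sqrt (4 - alpha' ^ 2) * Real.sqrt (4 - alpha' ^ 2) = 4 - alpha' ^ 2 :=
    Real.mul_self_sqrt (by linarith [alpha'_sq_le])
  apply Complex.ext
  · simp [zeta]; nlinarith
  · simp [zeta]; ring

lemma zeta_zpow_norm (k : ℤ) : ‖zeta ^ k‖ = 1 := by
  rw [norm_zpow, zeta_norm, one_zpow]

lemma beta_zpow_succ_succ (k : ℤ) :
    beta ^ (k + 2) = alpha * beta ^ (k + 1) - beta ^ k := by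
  have h2 : beta ^ (k + 2) = beta ^ k * (beta * beta) := by
    rw [zpow_add₀ beta_ne_zero]; norm_num [sq]
  rw [h2, beta_quad, zpow_add_one₀ beta_ne_zero]; ring

lemma zeta_zpow_succ_succ (k : ℤ) :
    zeta ^ (k + 2) = (alpha' : ℂ) * zeta ^ (k + 1) - zeta ^ k := by
  have h2 : zeta ^ (k + 2) = zeta ^ k * (zeta * zeta) := by
    rw [zpow_add₀ zeta_ne_zero]; norm_num [sq]
  rw [h2, zeta_quad, zpow_add_one₀ zeta_ne_zero]; ring

/-- Traces `β^k + β^(-k) = p + q√2` and `2 Re ζ^k = p - q√2`. -/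
lemma trace_pair_nat : ∀ n : ℕ, ∃ p q : ℤ,
    beta ^ (n : ℤ) + beta ^ (-(n : ℤ)) = p + q * r2 ∧
    2 * (zeta ^ (n : ℤ)).re = p - q * r2 := by
  intro n
  induction n using Nat.twoStepInduction with
  | zero => exact ⟨2, 0, by norm_num⟩
  | one =>
    refine ⟨1, 1, ?_, ?_⟩
    · simp [beta_inv]; unfold beta alpha; ring
    · simp [zeta, alpha']; ring
  | more n ih0 ih1 =>
    obtain ⟨p0, q0, a0, b0⟩ := ih0
    obtain ⟨p1, q1, a1, b1⟩ := ih1
    refine ⟨p1 + 2 * q1 - p0, p1 + q1 - q0, ?_, ?_⟩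
    · have e1 : beta ^ ((n + 2 : ℕ) : ℤ) =
          alpha * beta ^ ((n + 1 : ℕ) : ℤ) - beta ^ (n : ℤ) := by
        push_cast; exact beta_zpow_succ_succ n
      have e2 : beta ^ (-((n + 2 : ℕ) : ℤ)) =
          alpha * beta ^ (-((n + 1 : ℕ) : ℤ)) - beta ^ (-(n : ℤ)) := by
        have := beta_zpow_succ_succ (-(n : ℤ) - 2)
        push_cast
        rw [show -(n : ℤ) - 2 + 2 = -(n : ℤ) by ring, show -(n : ℤ) - 2 + 1 = -((n : ℤ) + 1) by ring,
          show -(n : ℤ) - 2 = -((n : ℤ) + 2) by ring] at this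
        linarith
      rw [e1, e2]
      have hh := r2_sq
      push_cast at a1 ⊢
      rw [alpha]
      linear_combination (1 + r2) * a1 - a0 + (q1 : ℝ) * hh
    · have e1 : zeta ^ ((n + 2 : ℕ) : ℤ) =
          (alpha' : ℂ) * zeta ^ ((n + 1 : ℕ) : ℤ) - zeta ^ (n : ℤ) := by
        push_cast; exact zeta_zpow_succ_succ n
      rw [e1, Complex.sub_re, Complex.mul_re]
      simp only [Complex.ofReal_re, Complex.ofReal_im, zero_mul, sub_zero]
      have hh := r2_sq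
      push_cast at b1 ⊢
      rw [alpha']
      linear_combination (1 - r2) * b1 - b0 + (q1 : ℝ) * hh

lemma zeta_zpow_neg_re (k : ℤ) : (zeta ^ (-k)).re = (zeta ^ k).re := by
  rw [zpow_neg, Complex.inv_re, ← Complex.sq_norm, zeta_zpow_norm]; norm_num

lemma trace_pair (k : ℤ) : ∃ p q : ℤ, beta ^ k + beta ^ (-k) = p + q * r2 ∧
    2 * (zeta ^ k).re = p - q * r2 := by
  obtain ⟨n, rfl | rfl⟩ := k.eq_nat_or_neg
  · exact trace_pair_nat n
  · obtain ⟨p, q, a, b⟩ := trace_pair_nat n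
    exact ⟨p, q, by rw [neg_neg, add_comm]; exact a, by rw [zeta_zpow_neg_re]; exact b⟩

lemma trace_int (k : ℤ) : ∃ m : ℤ, beta ^ k + beta ^ (-k) + 2 * (zeta ^ k).re = m := by
  obtain ⟨p, q, a, b⟩ := trace_pair k
  exact ⟨2 * p, by rw [a, b]; push_cast; ring⟩

/-- `β^k - β^(-k) = (a + b√2)√D`. -/
lemma diff_pair_nat : ∀ n : ℕ, ∃ a b : ℤ,
    beta ^ (n : ℤ) - beta ^ (-(n : ℤ)) = (a + b * r2) * sqD := by
  intro n
  induction n using Nat.twoStepInduction with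
  | zero => exact ⟨0, 0, by norm_num⟩
  | one => exact ⟨1, 0, by simp [beta_inv]; unfold beta; ring⟩
  | more n ih0 ih1 =>
    obtain ⟨p0, q0, a0⟩ := ih0
    obtain ⟨p1, q1, a1⟩ := ih1
    refine ⟨p1 + 2 * q1 - p0, p1 + q1 - q0, ?_⟩
    have e1 : beta ^ ((n + 2 : ℕ) : ℤ) =
        alpha * beta ^ ((n + 1 : ℕ) : ℤ) - beta ^ (n : ℤ) := by
      push_cast; exact beta_zpow_succ_succ n
    have e2 : beta ^ (-((n + 2 : ℕ) : ℤ)) =
        alpha * beta ^ (-((n + 1 : ℕ) : ℤ)) - beta ^ (-(n : ℤ)) := by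
      have := beta_zpow_succ_succ (-(n : ℤ) - 2)
      push_cast
      rw [show -(n : ℤ) - 2 + 2 = -(n : ℤ) by ring, show -(n : ℤ) - 2 + 1 = -((n : ℤ) + 1) by ring,
        show -(n : ℤ) - 2 = -((n : ℤ) + 2) by ring] at this
      linarith
    rw [e1, e2]
    push_cast at a1 ⊢
    rw [alpha]
    linear_combination (1 + r2) * a1 - a0 + (q1 : ℝ) * sqD * r2_sq

lemma diff_pair (k : ℤ) : ∃ a b : ℤ, beta ^ k - beta ^ (-k) = (a + b * r2) * sqD := by
  obtain ⟨n, rfl | rfl⟩ := k.eq_nat_or_neg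
  · exact diff_pair_nat n
  · obtain ⟨a, b, h⟩ := diff_pair_nat n
    refine ⟨-a, -b, ?_⟩
    rw [neg_neg]; push_cast; linarith

lemma irr2 {a b : ℚ} (h : (a : ℝ) + b * r2 = 0) : a = 0 ∧ b = 0 := by
  by_cases hb : b = 0
  · subst hb; simp at h; exact ⟨h, rfl⟩
  · exfalso
    have hb' : (b : ℝ) ≠ 0 := by exact_mod_cast hb
    have : r2 = ((-a / b : ℚ) : ℝ) := by push_cast; field_simp; linarith
    exact irrational_sqrt_two ⟨-a / b, this.symm⟩

/-- `√D` is not in `ℚ(√2)`. -/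
lemma indep {a b c d : ℚ} (h : ((c : ℝ) + d * r2) * sqD = a + b * r2) : c = 0 ∧ d = 0 := by
  have h1 : ((c : ℝ) + d * r2) ^ 2 * (2 * r2 - 1) = ((a : ℝ) + b * r2) ^ 2 := by
    rw [← h]; linear_combination -((c : ℝ) + d * r2) ^ 2 * sqD_sq
  have h2 : (((-(c ^ 2 + 2 * d ^ 2) + 8 * c * d - (a ^ 2 + 2 * b ^ 2)) : ℚ) : ℝ) +
      (((2 * (c ^ 2 + 2 * d ^ 2) - 2 * c * d - 2 * a * b) : ℚ) : ℝ) * r2 = 0 := by
    push_cast
    linear_combination h1 + (-(2 * (d : ℝ) ^ 2 * r2) - 4 * (c : ℝ) * d + (d : ℝ) ^ 2 +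
      (b : ℝ) ^ 2) * r2_sq
  obtain ⟨e1, e2⟩ := irr2 h2
  have e1' : ((-(c ^ 2 + 2 * d ^ 2) + 8 * c * d - (a ^ 2 + 2 * b ^ 2) : ℚ) : ℝ) = 0 := by
    exact_mod_cast e1
  have e2' : ((2 * (c ^ 2 + 2 * d ^ 2) - 2 * c * d - 2 * a * b : ℚ) : ℝ) = 0 := by
    exact_mod_cast e2
  push_cast at e1' e2'
  have h3 : ((c : ℝ) - d * r2) ^ 2 * (-2 * r2 - 1) = ((a : ℝ) - b * r2) ^ 2 := by
    linear_combination e1' - r2 * e2' + (4 * (c : ℝ) * d - 2 * r2 * (d : ℝ) ^ 2 - (d : ℝ) ^ 2 -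
      (b : ℝ) ^ 2) * r2_sq
  have h4 : ((c : ℝ) - d * r2) ^ 2 = 0 := by
    nlinarith [sq_nonneg ((c : ℝ) - d * r2), sq_nonneg ((a : ℝ) - b * r2), r2_lb]
  have h5 : (c : ℝ) + ((-d : ℚ) : ℝ) * r2 = 0 := by
    push_cast; have := pow_eq_zero_iff (n := 2) two_ne_zero |>.1 h4; linarith
  obtain ⟨f1, f2⟩ := irr2 h5
  exact ⟨f1, by linarith⟩

lemma beta_zpow_inj {k l : ℤ} (h : beta ^ k = beta ^ l) : k = l :=
  zpow_right_injective₀ beta_pos one_lt_beta.ne' h

/-- `(β^k - β^(-k)) - (β^l - β^(-l))` is never in `ℚ(√2)` unless `k = l`. -/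
lemma diff_eq_imp {k l : ℤ} {a b : ℚ}
    (h : (beta ^ k - beta ^ (-k)) - (beta ^ l - beta ^ (-l)) = a + b * r2) : k = l := by
  obtain ⟨p, q, hp⟩ := diff_pair k
  obtain ⟨p', q', hp'⟩ := diff_pair l
  rw [hp, hp'] at h
  have : (((p - p' : ℤ) : ℚ) : ℝ) * 1 + 0 = (p : ℝ) - p' := by push_cast; ring
  obtain ⟨e1, e2⟩ := indep (c := ((p - p' : ℤ) : ℚ)) (d := ((q - q' : ℤ) : ℚ)) (a := a) (b := b)
    (by push_cast; linear_combination h)
  have e1' : p = p' := by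
    have : p - p' = 0 := by exact_mod_cast e1
    omega
  have e2' : q = q' := by
    have : q - q' = 0 := by exact_mod_cast e2
    omega
  subst e1' e2'
  have heq : beta ^ k - beta ^ (-k) = beta ^ l - beta ^ (-l) := by rw [hp, hp']
  apply beta_zpow_inj
  rw [zpow_neg, zpow_neg] at heq
  have hk : (0 : ℝ) < beta ^ k := zpow_pos beta_pos k
  have hl : (0 : ℝ) < beta ^ l := zpow_pos beta_pos l
  field_simp at heq
  have : (beta ^ k - beta ^ l) * (beta ^ k * beta ^ l + 1) = 0 := by linear_combination heq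
  rcases mul_eq_zero.1 this with h | h
  · linarith
  · nlinarith

lemma zeta_pow_ne_one {n : ℕ} (hn : n ≠ 0) : zeta ^ n ≠ 1 := by
  intro h
  obtain ⟨p, q, a, b⟩ := trace_pair_nat n
  rw [zpow_natCast, h] at b
  simp only [Complex.one_re, mul_one] at b
  obtain ⟨e1, e2⟩ := irr2 (a := (p : ℚ) - 2) (b := -(q : ℚ)) (by push_cast; linarith)
  have hp : (p : ℝ) = 2 := by
    have : (p : ℚ) = 2 := by linarith
    exact_mod_cast this
  have hq : (q : ℝ) = 0 := by
    have : (q : ℚ) = 0 := by linarith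
    exact_mod_cast this
  rw [hp, hq, zpow_neg, zpow_natCast] at a
  have h1 : (1 : ℝ) < beta ^ n := one_lt_pow₀ one_lt_beta hn
  have h2 : beta ^ n * (beta ^ n)⁻¹ = 1 := mul_inv_cancel₀ (by positivity)
  nlinarith [sq_nonneg (beta ^ n - 1)]

/-- For any `p ∈ ℚ[X]`, the values at `β` and `ζ` are conjugate. -/
lemma aeval_pair (p : ℚ[X]) : ∃ a b c d : ℚ,
    aeval beta p = ((a : ℝ) + b * r2) + ((c : ℝ) + d * r2) * beta ∧
    aeval zeta p = (((a : ℝ) - b * r2 : ℝ) : ℂ) + (((c : ℝ) - d * r2 : ℝ) : ℂ) * zeta := by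
  induction p using Polynomial.induction_on with
  | C r => exact ⟨r, 0, 0, 0, by simp, by simp⟩
  | add p q hp hq =>
    obtain ⟨a, b, c, d, h1, h2⟩ := hp
    obtain ⟨a', b', c', d', h1', h2'⟩ := hq
    refine ⟨a + a', b + b', c + c', d + d', ?_, ?_⟩
    · rw [map_add, h1, h1']; push_cast; ring
    · rw [map_add, h2, h2']; push_cast; ring
  | monomial n r ih =>
    obtain ⟨a, b, c, d, h1, h2⟩ := ih
    refine ⟨-c, -d, a + c + 2 * d, b + c + d, ?_, ?_⟩
    · rw [pow_succ, ← mul_assoc, map_mul, h1, aeval_X]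
      have := beta_quad; have := r2_sq
      push_cast
      rw [alpha] at *
      linear_combination ((c : ℝ) + d * r2) * beta_quad.trans (by rw [alpha]) +
        (d : ℝ) * beta * r2_sq
    · rw [pow_succ, ← mul_assoc, map_mul, h2, aeval_X]
      have hz := zeta_quad
      rw [alpha'] at hz
      have hr : (r2 : ℂ) * (r2 : ℂ) = 2 := by exact_mod_cast r2_sq
      push_cast at hz ⊢
      linear_combination ((c : ℂ) - d * (r2 : ℂ)) * hz + (d : ℂ) * zeta * hr

end Vale.Agent.P105
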