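import Mathlib

/-!
Definitions used by the statement of the hand-in for P105.
-/

namespace Vale.Agent.P105

open MeasureTheory

/-- The law of an i.i.d. sequence of fair coins. -/
noncomputable def coinSeq : Measure (ℕ → Bool) :=
  Measure.infinitePi fun _ : ℕ ↦ (PMF.uniformOfFintype Bool).toMeasure

/-- The unbiased Bernoulli convolution: the law of `∑ ε n * lam ^ n` with fair signs `ε n`. -/
noncomputable def bernoulliConv (lam : ℝ) : Measure ℝ :=
  coinSeq.map fun ω ↦ ∑' n : ℕ, (if ω n then (1 : ℝ) else -1) * lam ^ n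

/-- A Pisot number: a real algebraic integer `> 1` whose other conjugates have modulus `< 1`. -/
def IsPisot (b : ℝ) : Prop :=
  1 < b ∧ IsIntegral ℤ b ∧
    ∀ z ∈ (minpoly ℚ b).aroots ℂ, z ≠ (b : ℂ) → ‖z‖ < 1

end Vale.Agent.P105
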