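import Vale.Agent.P105.Main

/-!
Choice of parameters, singularity, and the facts that `beta` is not Pisot.
-/

namespace Vale.Agent.P105

open MeasureTheory Filter Finset Topology Polynomial

lemma rpow_sublinear (B : ℝ) :
    ∀ᶠ x : ℝ in atTop, B * x ^ (9 / 10 : ℝ) ≤ x / 32 := by
  filter_upwards [eventually_gt_atTop (0 : ℝ),
    (tendsto_rpow_atTop (show (0 : ℝ) < 1 / 10 by norm_num)).eventually_ge_atTop (32 * B)]
    with x hx h
  have h1 : x = x ^ (9 / 10 : ℝ) * x ^ (1 / 10 : ℝ) := by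
    rw [← Real.rpow_add hx]; norm_num
  have h2 := mul_le_mul_of_nonneg_left h (Real.rpow_nonneg hx.le (9 / 10 : ℝ))
  rw [← h1] at h2
  linarith

/-- Sets of small Lebesgue measure carrying almost all of `nu`. -/
lemma small_sets {η : ℝ} (hη : 0 < η) : ∃ S : Set ℝ, MeasurableSet S ∧
    nu Sᶜ ≤ ENNReal.ofReal η ∧ volume S ≤ ENNReal.ofReal η := by
  obtain ⟨m0, hm0, -, B, hB, hev⟩ := exists_elements
  set R := (1 - beta⁻¹)⁻¹ with hR
  have hR0 : 0 < R := inv_pos.2 (by linarith [lam_lt_one])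
  have hevent : ∀ᶠ x : ℝ in atTop,
      (∃ d : Data, ∃ L : ℕ, Valid d L (Real.exp (-(1 / 2) * x)) m0 ∧
        (L : ℝ) ≤ Real.exp (45 / 100 * x) ∧ d.cost L ≤ B * x ^ (9 / 10 : ℝ)) ∧
      0 ≤ x ∧ B * x ^ (9 / 10 : ℝ) ≤ x / 32 ∧
      (2 * R + 2) * Real.exp (-(1 / 8) * x) ≤ η / 16 ∧
      Real.exp (-(1 / 20) * x) * (24 * (3 / m0)) ≤ min (η / 64) (1 / 2) ∧
      Real.exp (-(2 / 10) * x) * 1440 ≤ η / 64 := by
    have c1 : (0 : ℝ) < η / 16 / (2 * R + 2) := by positivity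
    have c2 : (0 : ℝ) < min (η / 64) (1 / 2) / (24 * (3 / m0)) := by
      have : 0 < min (η / 64) (1 / 2) := lt_min (by linarith) (by norm_num)
      positivity
    filter_upwards [hev, eventually_ge_atTop (0 : ℝ), rpow_sublinear B,
      exp_small (show -(1 / 8 : ℝ) < 0 by norm_num) c1,
      exp_small (show -(1 / 20 : ℝ) < 0 by norm_num) c2,
      exp_small (show -(2 / 10 : ℝ) < 0 by norm_num) (show 0 < η / 64 / 1440 by linarith)]
      with x a1 a2 a3 a4 a5 a6
    refine ⟨a1, a2, a3, ?_, ?_, ?_⟩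
    · rw [mul_comm]; exact (le_div_iff₀ (by linarith)).1 a4
    · exact (le_div_iff₀ (by positivity)).1 a5
    · exact (le_div_iff₀ (by norm_num)).1 a6
  obtain ⟨x, ⟨d, L, hv, hL, hc⟩, hx, hsub, e8, e20, e2⟩ := hevent.exists
  set δ := Real.exp (-(1 / 2) * x) with hδ
  set M := ⌈Real.exp (1 / 4 * x)⌉₊ with hM
  have hMpos : 0 < M := Nat.ceil_pos.2 (Real.exp_pos _)
  have hMlb : Real.exp (1 / 4 * x) ≤ M := Nat.le_ceil _
  have hMub : (M : ℝ) ≤ 2 * Real.exp (1 / 4 * x) := ceil_le_two_exp (by norm_num) hx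
  set H := 2 * L + 1 with hH
  set ξ : ℕ → ℝ := fun j ↦ Real.pi * d.u ((M + L + j * H : ℕ) : ℤ) with hξ
  set a := Real.exp (-d.cost L) with ha
  have ha0 : 0 < a := Real.exp_pos _
  have hu1 : ∀ n : ℕ, (1 : ℝ) ≤ d.u (n : ℤ) ∧ beta ^ n ≤ d.u (n : ℤ) := by
    intro n
    have h1 : (1 : ℝ) ≤ beta ^ n := one_le_pow₀ one_lt_beta.le
    have h2 : beta ^ n ≤ d.s * beta ^ n := le_mul_of_one_le_left (by linarith) hv.s_ge
    simp only [Data.u, zpow_natCast]
    exact ⟨by linarith, h2⟩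
  -- arithmetic of the error terms
  have hL3 : (2 * (L : ℝ) + 1) * δ ≤ 3 * Real.exp (-(1 / 20) * x) := by
    have h1 : (1 : ℝ) ≤ Real.exp (45 / 100 * x) := Real.one_le_exp (by linarith)
    calc (2 * (L : ℝ) + 1) * δ ≤ (3 * Real.exp (45 / 100 * x)) * δ :=
          mul_le_mul_of_nonneg_right (by linarith) (Real.exp_pos _).le
      _ = _ := by rw [hδ, mul_assoc, ← Real.exp_add]; ring_nf
  set E1 := 24 * ((2 * (L : ℝ) + 1) * δ / m0) with hE1
  have hE1le : E1 ≤ min (η / 64) (1 / 2) := by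
    refine le_trans ?_ e20
    rw [hE1]
    calc 24 * ((2 * (L : ℝ) + 1) * δ / m0) ≤ 24 * (3 * Real.exp (-(1 / 20) * x) / m0) := by gcongr
      _ = _ := by ring
  have hE1n : 0 ≤ E1 := by positivity
  set E0 := 144 * δ ^ 2 * (((M + L + M * H : ℕ) : ℝ) + 1) with hE0
  have hE0le : E0 ≤ η / 64 := by
    refine le_trans ?_ e2
    have h1 : (1 : ℝ) ≤ Real.exp (45 / 100 * x) := Real.one_le_exp (by linarith)
    have h4 : (1 : ℝ) ≤ Real.exp (1 / 4 * x) := Real.one_le_exp (by linarith)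
    have h2 : (((M + L + M * H : ℕ) : ℝ) + 1) ≤
        10 * (Real.exp (1 / 4 * x) * Real.exp (45 / 100 * x)) := by
      rw [hH]; push_cast
      have p1 : (M : ℝ) * (2 * L + 1) ≤ 2 * Real.exp (1 / 4 * x) * (3 * Real.exp (45 / 100 * x)) :=
        mul_le_mul hMub (by linarith) (by positivity) (by positivity)
      have p2 : Real.exp (1 / 4 * x) ≤ Real.exp (1 / 4 * x) * Real.exp (45 / 100 * x) :=
        le_mul_of_one_le_right (by positivity) h1
      have p3 : Real.exp (45 / 100 * x) ≤ Real.exp (1 / 4 * x) * Real.exp (45 / 100 * x) :=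
        le_mul_of_one_le_left (by positivity) h4
      have p4 : (1 : ℝ) ≤ Real.exp (1 / 4 * x) * Real.exp (45 / 100 * x) := by linarith
      linarith
    calc E0 ≤ 144 * δ ^ 2 * (10 * (Real.exp (1 / 4 * x) * Real.exp (45 / 100 * x))) := by
          rw [hE0]; exact mul_le_mul_of_nonneg_left h2 (by positivity)
      _ = 1440 * (Real.exp (-(1 / 2) * x) * Real.exp (-(1 / 2) * x) *
            (Real.exp (1 / 4 * x) * Real.exp (45 / 100 * x))) := by rw [hδ]; ring
      _ ≤ Real.exp (-(2 / 10) * x) * 1440 := by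
          rw [← Real.exp_add, ← Real.exp_add, ← Real.exp_add, mul_comm]
          exact mul_le_mul_of_nonneg_right (Real.exp_le_exp.2 (by linarith)) (by norm_num)
  -- the hypotheses of the test
  have hlo : ∀ j, j < M → a * Real.exp (-E0) ≤ |∫ x, Real.cos (ξ j * x) ∂nu| := by
    intro j hj
    refine le_trans ?_ (hv.lower hm0 (M + L + j * H))
    rw [ha, ← Real.exp_add, Real.exp_le_exp, hE0]
    have : ((M + L + j * H : ℕ) : ℝ) ≤ ((M + L + M * H : ℕ) : ℝ) :=
      Nat.cast_le.2 (Nat.add_le_add_left (Nat.mul_le_mul_right H hj.le) _)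
    have := mul_le_mul_of_nonneg_left this (show (0 : ℝ) ≤ 144 * δ ^ 2 by positivity)
    linarith
  have hidx : ∀ i j, i < j → ((M + L + j * H : ℕ) : ℤ) =
      ((M + L + i * H : ℕ) : ℤ) + (((j - i) * H : ℕ) : ℤ) ∧ 2 * L + 1 ≤ (j - i) * H := by
    intro i j hij
    refine ⟨?_, Nat.le_mul_of_pos_left H (by omega)⟩
    rw [← Nat.cast_add]
    congr 1
    rw [add_assoc (M + L), ← add_mul, Nat.add_sub_cancel' hij.le]
  have hup : ∀ i j, i < j → |∫ x, Real.cos ((ξ j + ξ i) * x) ∂nu| ≤ a ^ 2 * Real.exp E1 ∧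
      |∫ x, Real.cos ((ξ j - ξ i) * x) ∂nu| ≤ a ^ 2 * Real.exp E1 := by
    intro i j hij
    obtain ⟨e, hD⟩ := hidx i j hij
    have h1 := hv.upper hm0 (N := M + L + i * H) (by omega) hD (Or.inl rfl : (1 : ℝ) = 1 ∨ _)
    have h2 := hv.upper hm0 (N := M + L + i * H) (by omega) hD (Or.inr rfl : (-1 : ℝ) = 1 ∨ _)
    have hpow : a ^ 2 * Real.exp E1 = Real.exp (-(2 * d.cost L) + E1) := by
      rw [ha, sq, ← Real.exp_add, ← Real.exp_add]; ring_nf
    simp only [hξ, e, hpow]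
    constructor
    · refine le_trans (le_of_eq ?_) h1
      rw [show ∀ p q : ℝ, Real.pi * p + Real.pi * q = Real.pi * (p + 1 * q) from
        fun p q ↦ by ring]
    · refine le_trans (le_of_eq ?_) h2
      rw [show ∀ p q : ℝ, Real.pi * p - Real.pi * q = Real.pi * (p + -1 * q) from
        fun p q ↦ by ring]
  have hgap : ∀ i j, i < j → (M : ℝ) ≤ ξ j - ξ i ∧ (M : ℝ) ≤ ξ j + ξ i := by
    intro i j hij
    obtain ⟨e, hD⟩ := hidx i j hij
    obtain ⟨p1, p2⟩ := hu1 (M + L + i * H)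
    have hb : beta ≤ beta ^ ((j - i) * H) := le_self_pow₀ one_lt_beta.le (by omega)
    have hu : d.u ((M + L + j * H : ℕ) : ℤ) =
        d.u ((M + L + i * H : ℕ) : ℤ) * beta ^ ((j - i) * H) := by
      rw [e]; simp only [Data.u]; rw [zpow_add₀ beta_ne_zero, zpow_natCast beta ((j - i) * H)]
      ring
    have hMb : (M : ℝ) ≤ beta ^ M :=
      (self_le_exp_half (Nat.cast_nonneg M)).trans (exp_le_beta_pow M)
    have hMb' : beta ^ M ≤ beta ^ (M + L + i * H) :=
      pow_le_pow_right₀ one_lt_beta.le (by omega)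
    have hge : (M : ℝ) ≤ ξ j - ξ i := by
      simp only [hξ]
      rw [hu, ← mul_sub, ← mul_sub_one]
      have hb87 : (87 / 100 : ℝ) ≤ beta ^ ((j - i) * H) - 1 := by linarith [beta_lb]
      calc (M : ℝ) ≤ 3 * (d.u ((M + L + i * H : ℕ) : ℤ) * (87 / 100)) := by linarith
        _ ≤ Real.pi * (d.u ((M + L + i * H : ℕ) : ℤ) * (beta ^ ((j - i) * H) - 1)) := by
            gcongr
            · exact Real.pi_gt_three.le
    refine ⟨hge, ?_⟩
    have : 0 ≤ ξ i := mul_nonneg Real.pi_pos.le (by linarith)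
    linarith
  have hsupp : nu (Set.Icc (-R) R)ᶜ = 0 := bernoulliConv_supp lam_nonneg lam_lt_one
  obtain ⟨S, hS, hSnu, hSvol, hfin⟩ :=
    test_set M hMpos ξ ha0 hR0 hsupp hlo hup (Real.exp_pos _).le hgap
  refine ⟨S, hS, ?_, ?_⟩
  all_goals
    have hma : 1 / ((M : ℝ) * a ^ 2) ≤ Real.exp (-(1 / 8) * x) := by
      rw [div_le_iff₀ (by positivity)]
      have hac : Real.exp (-(x / 16)) ≤ a ^ 2 := by
        rw [ha, sq, ← Real.exp_add]; exact Real.exp_le_exp.2 (by linarith)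
      calc (1 : ℝ) ≤ Real.exp (-(1 / 8) * x) * (Real.exp (1 / 4 * x) * Real.exp (-(x / 16))) := by
            rw [← Real.exp_add, ← Real.exp_add]; exact Real.one_le_exp (by linarith)
        _ ≤ _ := by gcongr
  · rw [← ENNReal.ofReal_toReal (measure_ne_top nu Sᶜ)]
    refine ENNReal.ofReal_le_ofReal (hSnu.trans ?_)
    have h1 : Real.exp E1 ≤ 1 + 2 * E1 := by
      have := Real.abs_exp_sub_one_le (x := E1)
        (by rw [abs_of_nonneg hE1n]; linarith [min_le_right (η / 64) (1 / 2)])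
      rw [abs_of_nonneg hE1n] at this
      linarith [le_abs_self (Real.exp E1 - 1)]
    have h2 := Real.add_one_le_exp (-E0)
    have h3 : Real.exp (-(1 / 8) * x) ≤ (2 * R + 2) * Real.exp (-(1 / 8) * x) :=
      le_mul_of_one_le_left (Real.exp_pos _).le (by linarith)
    have := min_le_left (η / 64) (1 / 2)
    linarith
  · rw [← ENNReal.ofReal_toReal hfin]
    refine ENNReal.ofReal_le_ofReal (hSvol.trans ?_)
    have h1 : (2 * R + 2) / ((M : ℝ) * a ^ 2) ≤ (2 * R + 2) * Real.exp (-(1 / 8) * x) := by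
      rw [div_eq_mul_one_div]; exact mul_le_mul_of_nonneg_left hma (by linarith)
    linarith

/-- `nu` gives full mass to a Borel null set. -/
theorem nu_singular : ∃ A : Set ℝ, MeasurableSet A ∧ volume A = 0 ∧ nu A = 1 := by
  choose S hS h1 h2 using fun k : ℕ ↦ small_sets (η := (1 / 2 : ℝ) ^ k) (by positivity)
  have hsum : ∑' k, volume (S k) ≠ ⊤ := by
    refine ne_top_of_le_ne_top ?_ (ENNReal.tsum_le_tsum h2)
    rw [← ENNReal.ofReal_tsum_of_nonneg (fun n ↦ by positivity)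
      (summable_geometric_of_lt_one (by norm_num) (by norm_num))]
    exact ENNReal.ofReal_ne_top
  have hm : MeasurableSet (⋂ n, ⋃ k, ⋃ (_ : n ≤ k), S k) :=
    MeasurableSet.iInter fun n ↦ MeasurableSet.iUnion fun k ↦ MeasurableSet.iUnion fun _ ↦ hS k
  refine ⟨_, hm, ?_, ?_⟩
  · have : (⋂ n, ⋃ k, ⋃ (_ : n ≤ k), S k) = limsup S atTop := by
      simp [limsup_eq_iInf_iSup_of_nat, Set.iInf_eq_iInter, Set.iSup_eq_iUnion]
    rw [this]; exact measure_limsup_atTop_eq_zero hsum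
  · refine (prob_compl_eq_zero_iff hm).1 ?_
    rw [Set.compl_iInter, measure_iUnion_null_iff]
    intro n
    rw [Set.compl_iUnion]
    refine le_antisymm (le_of_forall_gt_imp_ge_of_dense fun e he ↦ ?_) bot_le
    have ht : Tendsto (fun k : ℕ ↦ ENNReal.ofReal ((1 / 2 : ℝ) ^ k)) atTop (𝓝 0) := by
      rw [← ENNReal.ofReal_zero]
      exact ENNReal.tendsto_ofReal
        (tendsto_pow_atTop_nhds_zero_of_lt_one (by norm_num) (by norm_num))
    obtain ⟨k, hk1, hk2⟩ := ((ht.eventually (eventually_le_nhds he)).and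
      (eventually_ge_atTop n)).exists
    refine le_trans (measure_mono ?_) ((h1 k).trans hk1)
    intro y hy hyS
    exact (Set.mem_iInter.1 hy k) (Set.mem_iUnion.2 ⟨hk2, hyS⟩)

lemma beta_isIntegral : IsIntegral ℤ beta := by
  refine ⟨X ^ 4 - C 2 * X ^ 3 + X ^ 2 - C 2 * X + C 1, by monicity!, ?_⟩
  simp
  linarith [beta_poly]

/-- `ζ` is a Galois conjugate of `β`. -/
lemma zeta_mem_aroots : zeta ∈ (minpoly ℚ beta).aroots ℂ := by
  have hint : IsIntegral ℚ beta := beta_isIntegral.tower_top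
  rw [mem_aroots]
  refine ⟨minpoly.ne_zero hint, ?_⟩
  obtain ⟨a, b, c, d, h1, h2⟩ := aeval_pair (minpoly ℚ beta)
  rw [minpoly.aeval] at h1
  -- `β` is not in `ℚ(√2)`
  have hcd : c = 0 ∧ d = 0 := by
    refine indep (a := -2 * a - c - 2 * d) (b := -2 * b - c - d) ?_
    push_cast
    have e : 2 * beta = (1 + r2) + sqD := by unfold beta alpha; ring
    linear_combination -2 * h1 - ((c : ℝ) + d * r2) * e + (-(d : ℝ)) * r2_sq
  obtain ⟨rfl, rfl⟩ := hcd
  simp at h1
  obtain ⟨rfl, rfl⟩ := irr2 h1.symm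
  simpa using h2

theorem beta_not_isPisot : ¬IsPisot beta := by
  rintro ⟨-, -, h⟩
  have hne : zeta ≠ (beta : ℂ) := by
    intro e
    have := zeta_norm
    rw [e, Complex.norm_real, Real.norm_eq_abs, abs_of_pos beta_pos] at this
    linarith [one_lt_beta]
  linarith [h zeta zeta_mem_aroots hne, zeta_norm]

end Vale.Agent.P105
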