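import Vale.Agent.P105.Seeds

/-!
The recursion over scales: at every large scale `x` there is an element with centre conjugate
at most `exp (-x/2)`, core at most `exp (0.45 x)` and weight exponent `O(x^0.9)`.
-/

namespace Vale.Agent.P105

open Finset Filter

lemma Valid.mono {d : Data} {L : ℕ} {δ m m' : ℝ} (h : Valid d L δ m) (hm : m' ≤ m) :
    Valid d L δ m' :=
  { h with core := fun k hk ↦ hm.trans (h.core k hk) }

lemma Valid.cost_le {d : Data} {L : ℕ} {δ m : ℝ} (h : Valid d L δ m) (hm : 0 < m) :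
    d.cost L ≤ (2 * (L : ℝ) + 1) * -Real.log m := by
  unfold Data.cost
  calc ∑ k ∈ Icc (-(L : ℤ)) L, f (d.u k) ≤ ∑ k ∈ Icc (-(L : ℤ)) L, -Real.log m :=
        sum_le_sum fun k hk ↦ neg_le_neg (Real.log_le_log hm (h.core k hk))
    _ = (2 * (L : ℝ) + 1) * -Real.log m := by
        rw [sum_const, nsmul_eq_mul, Int.card_Icc,
          show (L : ℤ) + 1 - -(L : ℤ) = ((2 * L + 1 : ℕ) : ℤ) by push_cast; ring,
          Int.toNat_natCast]
        push_cast; ring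

lemma rpow_shrink {a c : ℝ} (ha : 0 ≤ a) (hc : 0 < c) (h : a ^ 9 * c ^ 10 ≤ 1) :
    c * a ^ (9 / 10 : ℝ) ≤ 1 := by
  have h1 : (c * a ^ (9 / 10 : ℝ)) ^ 10 = a ^ 9 * c ^ 10 := by
    rw [mul_pow, ← Real.rpow_natCast (a ^ (9 / 10 : ℝ)) 10, ← Real.rpow_mul ha]
    norm_num
    ring
  exact (pow_le_one_iff_of_nonneg (mul_nonneg hc.le (Real.rpow_nonneg ha _))
    (by norm_num : (10 : ℕ) ≠ 0)).1 (h1 ▸ h)

lemma mul_rpow_le {a c B x y : ℝ} (hy : 0 ≤ y) (hx : 0 ≤ x) (ha : 0 ≤ a) (hB : 0 ≤ B)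
    (hc : 0 < c) (h : a ^ 9 * c ^ 10 ≤ 1) (hyx : y ≤ a * x) :
    c * (B * y ^ (9 / 10 : ℝ)) ≤ B * x ^ (9 / 10 : ℝ) := by
  have h1 : y ^ (9 / 10 : ℝ) ≤ a ^ (9 / 10 : ℝ) * x ^ (9 / 10 : ℝ) := by
    rw [← Real.mul_rpow ha hx]; exact Real.rpow_le_rpow hy hyx (by norm_num)
  have h2 := rpow_shrink ha hc h
  calc c * (B * y ^ (9 / 10 : ℝ))
      ≤ c * (B * (a ^ (9 / 10 : ℝ) * x ^ (9 / 10 : ℝ))) := by gcongr
    _ = B * x ^ (9 / 10 : ℝ) * (c * a ^ (9 / 10 : ℝ)) := by ring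
    _ ≤ B * x ^ (9 / 10 : ℝ) :=
        mul_le_of_le_one_right (mul_nonneg hB (Real.rpow_nonneg hx _)) h2

/-- The bounded excess of a step. -/
noncomputable def excess (m0 : ℝ) : ℝ := 144 / m0 + 5888

lemma Valid.step' {d : Data} {L : ℕ} {δ m : ℝ} (h : Valid d L δ m) {q w : ℕ}
    {δ' m' m0 : ℝ} (hq : 2 * L + 1 ≤ q) (hm0 : 0 < m0) (hmm : m0 ≤ m) (hm2 : m ≤ 1 / 2)
    (h24 : 24 * δ ≤ m0) (hδ' : ‖zeta ^ q - 1‖ * δ ≤ δ') (hδ'0 : 0 < δ') (hδ'le : δ' ≤ δ)
    (hw : δ ≤ δ' * beta ^ w) (hm' : m' ≤ m - 12 * δ)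
    (b1 : (L : ℝ) * δ ≤ 1) (b2 : δ ^ 2 * ((q : ℝ) + 1) ≤ 20)
    (b3 : δ' ^ 2 * ((L + q + w : ℕ) : ℝ) ≤ 1) :
    Valid (d.up q) (L + q + w) δ' m' ∧
    (d.up q).cost (L + q + w) ≤ 2 * d.cost L + excess m0 := by
  obtain ⟨hv, hc⟩ := h.step hq (hm0.trans_le hmm) hm2 (h24.trans hmm) hδ' hδ'0 hδ'le hw hm'
  refine ⟨hv, hc.trans ?_⟩
  have hδ := h.δ_pos
  have h1 : (2 * (L : ℝ) + 1) * δ / m ≤ 3 / m0 := by
    refine div_le_div₀ (by norm_num) ?_ hm0 hmm
    nlinarith [h.δ_le]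
  have h2 : δ' ^ 2 ≤ 1 := by nlinarith [h.δ_le]
  unfold excess
  have e : 48 * (3 / m0) = 144 / m0 := by ring
  nlinarith

/-- Growth facts used at scale `x`. -/
structure Big (m0 x : ℝ) : Prop where
  ten : 10 ≤ x
  h41 : 2 * Real.exp (41 / 100 * x) ≤ Real.exp (42 / 100 * x)
  h45 : 3 * Real.exp (45 / 100 * x) ≤ Real.exp (1 * x)
  hδm : Real.exp (-(1 / 2) * x) ≤ m0 / 24
  hδm1 : Real.exp (-(405 / 1000) * x) ≤ m0 / 24
  h20 : 24 * Real.exp (-(1 / 2) * x) ≤ Real.exp (-(1 / 20) * x)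
  hq4 : Real.exp (-(1 / 20) * x) ≤ m0
  hhalf : Real.exp (-(1 / 40) * x) ≤ 1 / 2
  h51 : 7 * Real.exp (-(51 / 100) * x) ≤ Real.exp (-(1 / 2) * x)
  h505 : 7 * Real.exp (-(505 / 1000) * x) ≤ Real.exp (-(1 / 2) * x)
  h41' : 7 * Real.exp (-(41 / 100) * x) ≤ Real.exp (-(405 / 1000) * x)
  hL42 : 4 * Real.exp (42 / 100 * x) ≤ Real.exp (45 / 100 * x)
  hL32 : 10 * Real.exp (32 / 100 * x) ≤ Real.exp (45 / 100 * x)
  hlin : 4 * x + 2 ≤ Real.exp (2 / 10 * x)
  h22 : 9 * Real.exp (2 / 10 * x) ≤ Real.exp (22 / 100 * x)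
  h405 : 4 * Real.exp (2 / 10 * x) ≤ Real.exp (405 / 1000 * x)
  h48 : 48 * Real.exp (-(405 / 1000) * x) ≤ Real.exp (-(1 / 100) * x)
  h05 : 4 * Real.exp (-(1 / 20) * x) ≤ Real.exp (-(1 / 100) * x)

lemma eventually_big {m0 : ℝ} (hm0 : 0 < m0) : ∀ᶠ x in atTop, Big m0 x := by
  filter_upwards [eventually_ge_atTop (10 : ℝ),
    exp_dom (show (41 / 100 : ℝ) < 42 / 100 by norm_num) 2,
    exp_dom (show (45 / 100 : ℝ) < 1 by norm_num) 3,
    exp_small (show -(1 / 2 : ℝ) < 0 by norm_num) (show 0 < m0 / 24 by linarith),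
    exp_small (show -(405 / 1000 : ℝ) < 0 by norm_num) (show 0 < m0 / 24 by linarith),
    exp_dom (show -(1 / 2 : ℝ) < -(1 / 20) by norm_num) 24,
    exp_small (show -(1 / 20 : ℝ) < 0 by norm_num) hm0,
    exp_small (show -(1 / 40 : ℝ) < 0 by norm_num) (show (0 : ℝ) < 1 / 2 by norm_num),
    exp_dom (show -(51 / 100 : ℝ) < -(1 / 2) by norm_num) 7,
    exp_dom (show -(505 / 1000 : ℝ) < -(1 / 2) by norm_num) 7,
    exp_dom (show -(41 / 100 : ℝ) < -(405 / 1000) by norm_num) 7,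
    exp_dom (show (42 / 100 : ℝ) < 45 / 100 by norm_num) 4,
    exp_dom (show (32 / 100 : ℝ) < 45 / 100 by norm_num) 10,
    lin_dom (show (0 : ℝ) < 2 / 10 by norm_num) (show (0 : ℝ) ≤ 4 by norm_num)
      (show (0 : ℝ) ≤ 2 by norm_num),
    exp_dom (show (2 / 10 : ℝ) < 22 / 100 by norm_num) 9,
    exp_dom (show (2 / 10 : ℝ) < 405 / 1000 by norm_num) 4,
    exp_dom (show -(405 / 1000 : ℝ) < -(1 / 100) by norm_num) 48,
    exp_dom (show -(1 / 20 : ℝ) < -(1 / 100) by norm_num) 4]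
    with x a1 a2 a3 a4 a5 a6 a7 a8 a9 a10 a11 a12 a13 a14 a15 a16 a17 a18
  exact ⟨a1, a2, a3, a4, a5, a6, a7, a8, a9, a10, a11, a12, a13, a14, a15, a16, a17, a18⟩

lemma w_bound {x : ℝ} (hx : 0 ≤ x) :
    Real.exp x ≤ beta ^ ⌈2 * x⌉₊ ∧ (⌈2 * x⌉₊ : ℝ) ≤ 2 * x + 1 := by
  refine ⟨le_trans (Real.exp_le_exp.2 ?_) (exp_le_beta_pow _),
    (Nat.ceil_lt_add_one (by linarith)).le⟩
  linarith [Nat.le_ceil (2 * x)]

/-- What is produced at scale `x`. -/
def Goal (m0 B x : ℝ) : Prop :=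
  ∃ d : Data, ∃ L : ℕ, Valid d L (Real.exp (-(1 / 2) * x)) (m0 + Real.exp (-(1 / 20) * x)) ∧
    (L : ℝ) ≤ Real.exp (45 / 100 * x) ∧ d.cost L ≤ B * x ^ (9 / 10 : ℝ) - excess m0

/-- The second of two steps. -/
lemma second_step {m0 x : ℝ} (hm0 : 0 < m0) (hx : Big m0 x) {d1 : Data} {L1 : ℕ} {m1 C : ℝ}
    (hv1 : Valid d1 L1 (Real.exp (-(405 / 1000) * x)) m1) (hm01 : m0 ≤ m1) (hm12 : m1 ≤ 1 / 2)
    (hm1x : m0 + Real.exp (-(1 / 100) * x) / 2 ≤ m1)
    (hL1 : (L1 : ℝ) ≤ 3 * Real.exp (2 / 10 * x)) (hC : d1.cost L1 ≤ C) :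
    ∃ d : Data, ∃ L : ℕ, Valid d L (Real.exp (-(1 / 2) * x)) (m0 + Real.exp (-(1 / 20) * x)) ∧
      (L : ℝ) ≤ Real.exp (45 / 100 * x) ∧ d.cost L ≤ 2 * C + excess m0 := by
  have hx10 := hx.ten
  obtain ⟨hw1, hw2⟩ := w_bound (show 0 ≤ x by linarith)
  set w := ⌈2 * x⌉₊ with hw
  set δ1 := Real.exp (-(405 / 1000) * x) with hδ1
  have hpos2 := Real.exp_pos (2 / 10 * x)
  have hwδ : ∀ a : ℝ, 0 ≤ a → a ≤ x → 1 ≤ Real.exp (-a) * beta ^ w := fun a _ ha ↦ by
    calc (1 : ℝ) ≤ Real.exp (-a) * Real.exp x := by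
          rw [← Real.exp_add]; exact Real.one_le_exp (by linarith)
      _ ≤ _ := by gcongr
  set H := ⌈Real.exp (22 / 100 * x)⌉₊ with hH
  have hH1 : 2 * L1 + 1 ≤ H := by
    have h1 : (1 : ℝ) ≤ Real.exp (2 / 10 * x) := Real.one_le_exp (by linarith)
    have : ((2 * L1 + 1 : ℕ) : ℝ) ≤ H := by
      refine le_trans ?_ (Nat.le_ceil _)
      push_cast; linarith [hx.h22]
    exact_mod_cast this
  obtain ⟨j, hj0, hjx, hje⟩ := dirichlet_exp (z := zeta ^ H) (by rw [norm_pow, zeta_norm, one_pow])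
    (show (0 : ℝ) ≤ 1 / 10 by norm_num) (show 0 ≤ x by linarith)
  rw [← pow_mul] at hje
  have hKx : ((H * j : ℕ) : ℝ) ≤ 4 * Real.exp (32 / 100 * x) := by
    push_cast
    calc (H : ℝ) * j ≤ (2 * Real.exp (22 / 100 * x)) * (2 * Real.exp (1 / 10 * x)) :=
          mul_le_mul (ceil_le_two_exp (by norm_num) (by linarith)) hjx (Nat.cast_nonneg _)
            (by positivity)
      _ = 4 * (Real.exp (22 / 100 * x) * Real.exp (1 / 10 * x)) := by ring
      _ = _ := by rw [← Real.exp_add]; ring_nf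
  have hδ2' : ‖zeta ^ (H * j) - 1‖ * δ1 ≤ Real.exp (-(1 / 2) * x) := by
    refine le_trans ?_ hx.h505
    calc ‖zeta ^ (H * j) - 1‖ * δ1 ≤ 7 * Real.exp (-(1 / 10) * x) * δ1 := by
          gcongr
      _ = _ := by rw [hδ1, mul_assoc, ← Real.exp_add]; ring_nf
  have hexp32 : Real.exp (2 / 10 * x) ≤ Real.exp (32 / 100 * x) :=
    Real.exp_le_exp.2 (by linarith)
  have hL2 : (((L1 + H * j + w : ℕ)) : ℝ) ≤ Real.exp (45 / 100 * x) := by
    push_cast at hKx ⊢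
    linarith [hx.hL32, hx.hlin]
  obtain ⟨hv2, hc2⟩ := hv1.step' (q := H * j) (w := w) (δ' := Real.exp (-(1 / 2) * x))
    (m' := m0 + Real.exp (-(1 / 20) * x)) (m0 := m0)
    (hH1.trans (Nat.le_mul_of_pos_right _ hj0)) hm0 hm01
    hm12 (by linarith [hx.hδm1]) hδ2' (Real.exp_pos _)
    (Real.exp_le_exp.2 (by linarith))
    (by
      have h1 := hwδ (1 / 2 * x) (by linarith) (by linarith)
      rw [show -(1 / 2 * x) = -(1 / 2) * x by ring] at h1
      have : δ1 ≤ 1 := Real.exp_le_one_iff.2 (by linarith)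
      linarith)
    (by linarith [hx.h48, hx.h05])
    (by
      calc (L1 : ℝ) * δ1 ≤ Real.exp (405 / 1000 * x) * δ1 := by gcongr; linarith [hx.h405]
        _ ≤ 1 := by rw [hδ1, ← Real.exp_add, Real.exp_le_one_iff]; linarith)
    (by
      have h1 : δ1 ^ 2 * Real.exp (32 / 100 * x) ≤ 1 := by
        rw [hδ1, sq, ← Real.exp_add, ← Real.exp_add, Real.exp_le_one_iff]; linarith
      have h2 : δ1 ^ 2 ≤ 1 :=
        pow_le_one₀ (Real.exp_pos _).le (Real.exp_le_one_iff.2 (by linarith))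
      nlinarith [mul_le_mul_of_nonneg_left hKx (sq_nonneg δ1)])
    (by
      calc _ ≤ Real.exp (-(1 / 2) * x) ^ 2 * Real.exp (45 / 100 * x) := by gcongr
        _ ≤ 1 := by rw [sq, ← Real.exp_add, ← Real.exp_add, Real.exp_le_one_iff]; linarith)
  refine ⟨d1.up (H * j), L1 + H * j + w, hv2, hL2, hc2.trans ?_⟩
  linarith

/-- The inductive step between scales. -/
lemma goal_step {m0 B x : ℝ} {q : ℕ} (hm0 : 0 < m0) (hm4 : m0 ≤ 1 / 4) (hB : 0 ≤ B)
    (hx : Big m0 x) (hq0 : 0 < q) (hqx : (q : ℝ) ≤ 2 * Real.exp (41 / 100 * x))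
    (he : ‖zeta ^ q - 1‖ ≤ 7 * Real.exp (-(41 / 100) * x))
    (hy : Big m0 (Real.log q)) (hg : Goal m0 B (Real.log q)) : Goal m0 B x := by
  obtain ⟨d, L, hv, hL, hc⟩ := hg
  set y := Real.log q with hy'
  have hqpos : (0 : ℝ) < q := by exact_mod_cast hq0
  have hqy : (q : ℝ) = Real.exp y := (Real.exp_log hqpos).symm
  have hy42 : y ≤ 42 / 100 * x := by
    rw [← Real.exp_le_exp, ← hqy]; exact hqx.trans hx.h41
  have hx10 := hx.ten; have hy10 := hy.ten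
  obtain ⟨hw1, hw2⟩ := w_bound (show 0 ≤ x by linarith)
  set w := ⌈2 * x⌉₊ with hw
  have hL3 : 2 * L + 1 ≤ q := by
    have h1 : (1 : ℝ) ≤ Real.exp (45 / 100 * y) := Real.one_le_exp (by linarith)
    have : (((2 * L + 1 : ℕ) : ℝ)) ≤ q := by
      rw [hqy]; push_cast; have := hy.h45; rw [one_mul] at this; linarith
    exact_mod_cast this
  have hLq : (L : ℝ) ≤ q := by exact_mod_cast (by omega : L ≤ q)
  have hLδ : (L : ℝ) * Real.exp (-(1 / 2) * y) ≤ 1 := by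
    calc (L : ℝ) * Real.exp (-(1 / 2) * y)
        ≤ Real.exp (45 / 100 * y) * Real.exp (-(1 / 2) * y) := by gcongr
      _ ≤ 1 := by rw [← Real.exp_add, Real.exp_le_one_iff]; linarith
  have hδq : Real.exp (-(1 / 2) * y) ^ 2 * ((q : ℝ) + 1) ≤ 20 := by
    have h1 : Real.exp (-(1 / 2) * y) ^ 2 * Real.exp y = 1 := by
      rw [sq, ← Real.exp_add, ← Real.exp_add, show -(1 / 2) * y + -(1 / 2) * y + y = 0 by ring,
        Real.exp_zero]
    have h2 : Real.exp (-(1 / 2) * y) ^ 2 ≤ 1 :=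
      pow_le_one₀ (Real.exp_pos _).le (Real.exp_le_one_iff.2 (by linarith))
    rw [hqy]; nlinarith
  have hwδ : ∀ a : ℝ, 0 ≤ a → a ≤ x → 1 ≤ Real.exp (-a) * beta ^ w := fun a _ ha ↦ by
    calc (1 : ℝ) ≤ Real.exp (-a) * Real.exp x := by
          rw [← Real.exp_add]; exact Real.one_le_exp (by linarith)
      _ ≤ _ := by gcongr
  have hm2 : m0 + Real.exp (-(1 / 20) * y) ≤ 1 / 2 := by linarith [hy.hq4]
  have hep := Real.exp_pos (-(1 / 20) * y)
  rcases le_or_gt (2 / 10 * x) y with hyx | hyx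
  · -- one step
    have hδ' : ‖zeta ^ q - 1‖ * Real.exp (-(1 / 2) * y) ≤ Real.exp (-(1 / 2) * x) := by
      refine le_trans ?_ hx.h51
      calc ‖zeta ^ q - 1‖ * Real.exp (-(1 / 2) * y)
          ≤ 7 * Real.exp (-(41 / 100) * x) * Real.exp (-(1 / 10) * x) := by
            gcongr ?_ * ?_
            · exact Real.exp_le_exp.2 (by linarith)
        _ = _ := by rw [mul_assoc, ← Real.exp_add]; ring_nf
    have hL' : (((L + q + w : ℕ)) : ℝ) ≤ Real.exp (45 / 100 * x) := by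
      push_cast
      have h1 : (q : ℝ) ≤ Real.exp (42 / 100 * x) := hqx.trans hx.h41
      have h2 := hx.hlin; have h3 := hx.hL42
      have h4 : Real.exp (2 / 10 * x) ≤ Real.exp (45 / 100 * x) :=
        Real.exp_le_exp.2 (by linarith)
      linarith
    obtain ⟨hv', hc'⟩ := hv.step' (q := q) (w := w) (δ' := Real.exp (-(1 / 2) * x))
      (m' := m0 + Real.exp (-(1 / 20) * x)) (m0 := m0) hL3 hm0 (by linarith) hm2
      (by linarith [hy.hδm]) hδ' (Real.exp_pos _) (Real.exp_le_exp.2 (by linarith))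
      (by
        have h1 := hwδ (1 / 2 * x) (by linarith) (by linarith)
        rw [show -(1 / 2 * x) = -(1 / 2) * x by ring] at h1
        have : Real.exp (-(1 / 2) * y) ≤ 1 := Real.exp_le_one_iff.2 (by linarith)
        linarith)
      (by
        have h1 : Real.exp (-(1 / 20) * x) ≤ Real.exp (-(1 / 20) * y) * Real.exp (-(1 / 40) * x) := by
          rw [← Real.exp_add]; exact Real.exp_le_exp.2 (by linarith)
        have := mul_le_mul_of_nonneg_left hx.hhalf hep.le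
        linarith [hy.h20])
      hLδ hδq
      (by
        calc _ ≤ Real.exp (-(1 / 2) * x) ^ 2 * Real.exp (45 / 100 * x) := by gcongr
          _ ≤ 1 := by rw [sq, ← Real.exp_add, ← Real.exp_add, Real.exp_le_one_iff]; linarith)
    refine ⟨d.up q, L + q + w, hv', hL', hc'.trans ?_⟩
    have := mul_rpow_le (a := 42 / 100) (c := 2) (B := B) (x := x) (y := y) (by linarith)
      (by linarith) (by norm_num) hB (by norm_num) (by norm_num) hy42
    linarith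
  · -- two steps
    set δ1 := Real.exp (-(405 / 1000) * x) with hδ1
    set m1 := m0 + Real.exp (-(1 / 20) * y) - 12 * Real.exp (-(1 / 2) * y) with hm1
    have hm1lb : m0 + Real.exp (-(1 / 20) * y) / 2 ≤ m1 := by linarith [hy.h20]
    have hδ1' : ‖zeta ^ q - 1‖ * Real.exp (-(1 / 2) * y) ≤ δ1 := by
      refine le_trans ?_ hx.h41'
      calc ‖zeta ^ q - 1‖ * Real.exp (-(1 / 2) * y)
          ≤ ‖zeta ^ q - 1‖ * 1 := by
            gcongr; exact Real.exp_le_one_iff.2 (by linarith)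
        _ ≤ _ := by linarith
    have hq2 : (q : ℝ) ≤ Real.exp (2 / 10 * x) := by
      rw [hqy]; exact Real.exp_le_exp.2 hyx.le
    have hL1 : (((L + q + w : ℕ)) : ℝ) ≤ 3 * Real.exp (2 / 10 * x) := by
      push_cast; linarith [hx.hlin]
    have hpos2 := Real.exp_pos (2 / 10 * x)
    obtain ⟨hv1, hc1⟩ := hv.step' (q := q) (w := w) (δ' := δ1) (m' := m1) (m0 := m0) hL3 hm0
      (by linarith) hm2 (by linarith [hy.hδm]) hδ1' (Real.exp_pos _)
      (Real.exp_le_exp.2 (by linarith))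
      (by
        have h1 := hwδ (405 / 1000 * x) (by linarith) (by linarith)
        rw [show -(405 / 1000 * x) = -(405 / 1000) * x by ring, ← hδ1] at h1
        have : Real.exp (-(1 / 2) * y) ≤ 1 := Real.exp_le_one_iff.2 (by linarith)
        linarith)
      le_rfl hLδ hδq
      (by
        calc _ ≤ δ1 ^ 2 * Real.exp (405 / 1000 * x) := by gcongr; linarith [hx.h405]
          _ ≤ 1 := by rw [hδ1, sq, ← Real.exp_add, ← Real.exp_add, Real.exp_le_one_iff]; linarith)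
    have hey : Real.exp (-(1 / 100) * x) ≤ Real.exp (-(1 / 20) * y) :=
      Real.exp_le_exp.2 (by linarith)
    obtain ⟨d2, L2, hv2, hL2, hc2⟩ := second_step hm0 hx hv1 (by linarith)
      (by linarith [Real.exp_pos (-(1 / 2) * y)]) (by linarith) hL1 hc1
    refine ⟨d2, L2, hv2, hL2, hc2.trans ?_⟩
    have := mul_rpow_le (a := 21 / 100) (c := 4) (B := B) (x := x) (y := y) (by linarith)
      (by linarith) (by norm_num) hB (by norm_num) (by norm_num) (by linarith)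
    linarith

/-- Main quantitative statement. -/
theorem exists_elements : ∃ m0 > 0, m0 ≤ 1 / 4 ∧ ∃ B, 0 ≤ B ∧ ∀ᶠ x in atTop,
    ∃ d : Data, ∃ L : ℕ, Valid d L (Real.exp (-(1 / 2) * x)) m0 ∧
      (L : ℝ) ≤ Real.exp (45 / 100 * x) ∧ d.cost L ≤ B * x ^ (9 / 10 : ℝ) := by
  obtain ⟨m1, hm1, hm12, hseed⟩ := seeds
  set m0 := m1 / 2 with hm0def
  have hm0 : 0 < m0 := by linarith
  obtain ⟨x0, hx0⟩ := eventually_atTop.1 ((eventually_big hm0).and hseed)
  obtain ⟨xb', hxb'⟩ := eventually_atTop.1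
    (eventually_large ⌈Real.exp x0⌉₊ (show (0 : ℝ) < 41 / 100 by norm_num))
  set xb := max x0 xb' with hxb
  have hx10 : 10 ≤ x0 := (hx0 x0 le_rfl).1.ten
  have hexc : 0 ≤ excess m0 := by unfold excess; positivity
  have hlog : 0 ≤ -Real.log m1 := by
    have := Real.log_nonpos hm1.le (by linarith : m1 ≤ 1); linarith
  set B := (3 * Real.exp (45 / 100 * xb) * -Real.log m1 + excess m0) / x0 ^ (9 / 10 : ℝ) with hBdef
  have hx0p : 0 < x0 ^ (9 / 10 : ℝ) := Real.rpow_pos_of_pos (by linarith) _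
  have hB : 0 ≤ B := by positivity
  have key : ∀ n : ℕ, ∀ x, x0 ≤ x → x ≤ xb + n → Goal m0 B x := by
    intro n
    induction n with
    | zero =>
      intro x h1 h2
      obtain ⟨hbig, d, L, hv, hL⟩ := hx0 x h1
      refine ⟨d, L, hv.mono (by linarith [hbig.hq4]), hL, ?_⟩
      have hc := hv.cost_le hm1
      have h3 : (L : ℝ) ≤ Real.exp (45 / 100 * xb) :=
        hL.trans (Real.exp_le_exp.2 (by simp at h2; linarith))
      have h4 : (1 : ℝ) ≤ Real.exp (45 / 100 * xb) :=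
        Real.one_le_exp (by have := le_max_left x0 xb'; linarith)
      have h5 : B * x0 ^ (9 / 10 : ℝ) = 3 * Real.exp (45 / 100 * xb) * -Real.log m1 + excess m0 := by
        rw [hBdef, div_mul_cancel₀ _ hx0p.ne']
      have h6 : B * x0 ^ (9 / 10 : ℝ) ≤ B * x ^ (9 / 10 : ℝ) :=
        mul_le_mul_of_nonneg_left (Real.rpow_le_rpow (by linarith) h1 (by norm_num)) hB
      have h7 : (2 * (L : ℝ) + 1) * -Real.log m1 ≤ 3 * Real.exp (45 / 100 * xb) * -Real.log m1 :=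
        mul_le_mul_of_nonneg_right (by linarith) hlog
      linarith
    | succ n ih =>
      intro x h1 h2
      by_cases h : x ≤ xb + n
      · exact ih x h1 h
      have hxb1 : xb ≤ x := by
        have : (0 : ℝ) ≤ n := Nat.cast_nonneg n
        linarith
      have hbig := (hx0 x h1).1
      obtain ⟨q, hq0, hqx, he⟩ :=
        dirichlet_exp zeta_norm (show (0 : ℝ) ≤ 41 / 100 by norm_num)
          (show (0 : ℝ) ≤ x by linarith)
      have hqN := hxb' x ((le_max_right _ _).trans hxb1) q hq0 he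
      have hqpos : (0 : ℝ) < q := by exact_mod_cast hq0
      have hy0 : x0 ≤ Real.log q := by
        rw [Real.le_log_iff_exp_le hqpos]
        exact (Nat.le_ceil _).trans (by exact_mod_cast hqN)
      have hy1 : Real.log q ≤ 42 / 100 * x := by
        rw [Real.log_le_iff_le_exp hqpos]; exact hqx.trans hbig.h41
      refine goal_step hm0 (by linarith) hB hbig hq0 hqx he (hx0 _ hy0).1 (ih _ hy0 ?_)
      push_cast at h2; linarith
  refine ⟨m0, hm0, by linarith, B, hB, ?_⟩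
  filter_upwards [eventually_ge_atTop xb] with x hx
  obtain ⟨d, L, hv, hL, hc⟩ := key ⌈x - xb⌉₊ x ((le_max_left _ _).trans hx)
    (by linarith [Nat.le_ceil (x - xb)])
  exact ⟨d, L, hv.mono (by linarith [Real.exp_pos (-(1 / 20) * x)]), hL, by linarith⟩

end Vale.Agent.P105
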