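import Vale.Agent.P105.Defs

/-!
Basic facts about `bernoulliConv`: support and Fourier product.
-/

namespace Vale.Agent.P105

open MeasureTheory Filter Finset Topology

/-- The random series. -/
noncomputable def series (lam : ℝ) (ω : ℕ → Bool) : ℝ :=
  ∑' n : ℕ, (if ω n then (1 : ℝ) else -1) * lam ^ n

instance : IsProbabilityMeasure coinSeq := by unfold coinSeq; infer_instance

variable {lam : ℝ}

lemma series_summable (h0 : 0 ≤ lam) (h1 : lam < 1) (ω : ℕ → Bool) :
    Summable fun n : ℕ ↦ (if ω n then (1 : ℝ) else -1) * lam ^ n := by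
  refine Summable.of_norm_bounded (summable_geometric_of_lt_one h0 h1) fun n ↦ ?_
  rw [Real.norm_eq_abs, abs_mul, abs_pow, abs_of_nonneg h0]
  refine mul_le_of_le_one_left (by positivity) ?_
  split <;> simp

lemma abs_series_le (h0 : 0 ≤ lam) (h1 : lam < 1) (ω : ℕ → Bool) :
    |series lam ω| ≤ (1 - lam)⁻¹ := by
  rw [← Real.norm_eq_abs, series, ← tsum_geometric_of_lt_one h0 h1]
  refine tsum_of_norm_bounded (summable_geometric_of_lt_one h0 h1).hasSum fun n ↦ ?_
  rw [Real.norm_eq_abs, abs_mul, abs_pow, abs_of_nonneg h0]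
  refine mul_le_of_le_one_left (by positivity) ?_
  split <;> simp

lemma measurable_partial (lam : ℝ) (K : ℕ) :
    Measurable fun ω : ℕ → Bool ↦ ∑ n ∈ range K, (if ω n then (1 : ℝ) else -1) * lam ^ n :=
  Finset.measurable_sum _ fun n _ ↦
    (measurable_of_finite fun b : Bool ↦ (if b then (1 : ℝ) else -1) * lam ^ n).comp
      (measurable_pi_apply n)

lemma measurable_series (h0 : 0 ≤ lam) (h1 : lam < 1) : Measurable (series lam) := by
  refine measurable_of_tendsto_metrizable
    (f := fun K ω ↦ ∑ n ∈ range K, (if ω n then (1 : ℝ) else -1) * lam ^ n) (fun K ↦ ?_) ?_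
  · exact measurable_partial lam K
  · rw [tendsto_pi_nhds]
    exact fun ω ↦ (series_summable h0 h1 ω).hasSum.tendsto_sum_nat

lemma bernoulliConv_eq (lam : ℝ) : bernoulliConv lam = coinSeq.map (series lam) := rfl

lemma isProbability_bernoulliConv (h0 : 0 ≤ lam) (h1 : lam < 1) :
    IsProbabilityMeasure (bernoulliConv lam) :=
  Measure.isProbabilityMeasure_map (measurable_series h0 h1).aemeasurable

lemma bernoulliConv_supp (h0 : 0 ≤ lam) (h1 : lam < 1) :
    bernoulliConv lam (Set.Icc (-(1 - lam)⁻¹) (1 - lam)⁻¹)ᶜ = 0 := by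
  rw [bernoulliConv_eq, Measure.map_apply (measurable_series h0 h1) measurableSet_Icc.compl]
  convert measure_empty (μ := coinSeq)
  ext ω
  have := abs_le.1 (abs_series_le h0 h1 ω)
  simp [this.1, this.2]

lemma integral_cos_finite (lam ξ : ℝ) (K : ℕ) :
    ∫ ω, Real.cos (ξ * ∑ n ∈ range K, (if ω n then (1 : ℝ) else -1) * lam ^ n) ∂coinSeq =
      ∏ n ∈ range K, Real.cos (ξ * lam ^ n) := by
  set F : ((i : range K) → Bool) → ℂ := fun v ↦
    ∏ i : range K, Complex.exp ((ξ * ((if v i then (1 : ℝ) else -1) * lam ^ (i : ℕ)) : ℝ) * Complex.I)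
  have hF : ∀ ω : ℕ → Bool, F ((range K).restrict ω) =
      Complex.exp ((ξ * ∑ n ∈ range K, (if ω n then (1 : ℝ) else -1) * lam ^ n : ℝ) * Complex.I) := by
    intro ω
    rw [mul_sum, Complex.ofReal_sum, sum_mul, Complex.exp_sum, ← Finset.prod_coe_sort (range K)]
    rfl
  have hint : ∫ ω, F ((range K).restrict ω) ∂coinSeq =
      ((∏ n ∈ range K, Real.cos (ξ * lam ^ n) : ℝ) : ℂ) := by
    rw [← integral_map (φ := (range K).restrict) (by fun_prop) (by fun_prop), coinSeq,
      Measure.infinitePi_map_restrict]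
    simp only [F]
    rw [integral_fintype_prod_eq_prod
      (f := fun (i : range K) (b : Bool) ↦
        Complex.exp ((ξ * ((if b then (1 : ℝ) else -1) * lam ^ (i : ℕ)) : ℝ) * Complex.I)),
      Complex.ofReal_prod, ← Finset.prod_coe_sort (range K)]
    refine prod_congr rfl fun i _ ↦ ?_
    rw [PMF.integral_eq_sum, Fintype.sum_bool, Complex.ofReal_cos, Complex.cos]
    simp only [PMF.uniformOfFintype_apply, Fintype.card_bool]
    norm_num
    ring_nf
  simp only [hF] at hint
  have hre := congrArg Complex.re hint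
  rw [Complex.ofReal_re, ← RCLike.re_to_complex, ← integral_re] at hre
  · rw [← hre]
    refine integral_congr_ae (Eventually.of_forall fun ω ↦ ?_)
    simp only [RCLike.re_to_complex, Complex.exp_ofReal_mul_I_re]
  · refine Integrable.of_bound (((Complex.continuous_exp.comp (Complex.continuous_ofReal.mul
      continuous_const)).measurable.comp
        ((measurable_partial lam K).const_mul ξ)).aestronglyMeasurable) 1 (Eventually.of_forall fun ω ↦ ?_)
    rw [Complex.norm_exp_ofReal_mul_I]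

lemma integral_bernoulliConv {h : ℝ → ℝ} (h0 : 0 ≤ lam) (h1 : lam < 1) (hh : Continuous h) :
    ∫ x, h x ∂bernoulliConv lam = ∫ ω, h (series lam ω) ∂coinSeq := by
  rw [bernoulliConv_eq, integral_map (measurable_series h0 h1).aemeasurable
    hh.aestronglyMeasurable]

lemma tendsto_prod_cos (h0 : 0 ≤ lam) (h1 : lam < 1) (ξ : ℝ) :
    Tendsto (fun K ↦ ∏ n ∈ range K, Real.cos (ξ * lam ^ n)) atTop
      (𝓝 (∫ x, Real.cos (ξ * x) ∂bernoulliConv lam)) := by
  rw [integral_bernoulliConv h0 h1 (by fun_prop)]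
  simp only [← integral_cos_finite]
  refine tendsto_integral_of_dominated_convergence (fun _ ↦ 1) (fun K ↦ ?_)
    (integrable_const _) (fun K ↦ ?_) ?_
  · exact (Real.measurable_cos.comp ((measurable_partial lam K).const_mul ξ)).aestronglyMeasurable
  · exact Eventually.of_forall fun ω ↦ by rw [Real.norm_eq_abs]; exact Real.abs_cos_le_one _
  · exact Eventually.of_forall fun ω ↦
      ((Real.continuous_cos.comp (continuous_const_mul ξ)).tendsto _).comp
        (series_summable h0 h1 ω).hasSum.tendsto_sum_nat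

lemma abs_integral_cos_le (h0 : 0 ≤ lam) (h1 : lam < 1) (ξ : ℝ) (s : Finset ℕ) :
    |∫ x, Real.cos (ξ * x) ∂bernoulliConv lam| ≤ ∏ n ∈ s, |Real.cos (ξ * lam ^ n)| := by
  refine le_of_tendsto (tendsto_prod_cos h0 h1 ξ).abs ?_
  obtain ⟨K0, hK0⟩ := s.exists_nat_subset_range
  filter_upwards [eventually_ge_atTop K0] with K hK
  rw [abs_prod, ← prod_sdiff (hK0.trans (range_subset_range.2 hK))]
  exact mul_le_of_le_one_left (prod_nonneg fun _ _ ↦ abs_nonneg _)
    (prod_le_one (fun _ _ ↦ abs_nonneg _) fun _ _ ↦ Real.abs_cos_le_one _)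

lemma le_abs_integral_cos (h0 : 0 ≤ lam) (h1 : lam < 1) (ξ c : ℝ)
    (h : ∀ K, c ≤ ∏ n ∈ range K, |Real.cos (ξ * lam ^ n)|) :
    c ≤ |∫ x, Real.cos (ξ * x) ∂bernoulliConv lam| := by
  refine ge_of_tendsto (tendsto_prod_cos h0 h1 ξ).abs (Eventually.of_forall fun K ↦ ?_)
  rw [abs_prod]; exact h K

end Vale.Agent.P105
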