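import Vale.Agent.P105.Induction
import Vale.Agent.P105.Measure

/-!
The second moment test: `bernoulliConv beta⁻¹` is singular.
-/

namespace Vale.Agent.P105

open MeasureTheory Filter Finset Topology

lemma lam_nonneg : (0 : ℝ) ≤ beta⁻¹ := inv_nonneg.2 beta_pos.le

lemma lam_lt_one : beta⁻¹ < (1 : ℝ) := inv_lt_one_of_one_lt₀ one_lt_beta

/-- The Bernoulli convolution under study. -/
noncomputable def nu : Measure ℝ := bernoulliConv beta⁻¹

instance : IsProbabilityMeasure nu := isProbability_bernoulliConv lam_nonneg lam_lt_one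

lemma beta_zpow_sub (N : ℤ) (n : ℕ) : beta ^ N * (beta⁻¹) ^ n = beta ^ (N - (n : ℤ)) := by
  rw [zpow_sub₀ beta_ne_zero, zpow_natCast, div_eq_mul_inv, inv_pow]

lemma phase_eq (d : Data) (N : ℤ) (n : ℕ) :
    |Real.cos (Real.pi * d.u N * beta⁻¹ ^ n)| = g (d.u (N - n)) := by
  simp only [g, Data.u, ← beta_zpow_sub]
  ring_nf

variable {d : Data} {L : ℕ} {δ m : ℝ}

lemma Valid.far (h : Valid d L δ m) {k : ℤ} (hk : k < -(L : ℤ) ∨ (L : ℤ) < k) :
    1 / 2 ≤ g (d.u k) ∧
      f (d.u k) ≤ if k ≤ -(L : ℤ) then 16 * δ ^ 2 * (beta ^ (k + (L : ℤ))) ^ 2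
        else 144 * δ ^ 2 := by
  have hδ := h.δ_pos; have := h.δ_le
  rcases hk with hk | hk
  · rw [if_pos hk.le]
    have hb : beta ^ (k + (L : ℤ)) ≤ 1 := zpow_le_one_of_nonpos₀ one_lt_beta.le (by omega)
    have he : δ * beta ^ (k + (L : ℤ)) ≤ δ := by nlinarith
    refine ⟨?_, (f_small (h.u_left k) (by linarith)).trans (by ring_nf; rfl)⟩
    have := g_small (h.u_left' hk.le) (by linarith)
    nlinarith
  · rw [if_neg (by omega), d.g_u_eq h.integral, d.f_u_eq h.integral]
    have hz := h.z_right hk.le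
    refine ⟨?_, (f_small hz (by linarith)).trans (by ring_nf; rfl)⟩
    have := g_small hz (by linarith)
    nlinarith

lemma Valid.g_pos (h : Valid d L δ m) (hm : 0 < m) (k : ℤ) : 0 < g (d.u k) := by
  by_cases hk : k ∈ Icc (-(L : ℤ)) L
  · exact hm.trans_le (h.core k hk)
  · rw [Finset.mem_Icc, not_and_or, not_le, not_le] at hk
    linarith [(h.far hk).1]

/-- The Fourier coefficient at `π s β^N` is at least the weight, up to a negligible error. -/
lemma Valid.lower (h : Valid d L δ m) (hm : 0 < m) (N : ℕ) :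
    Real.exp (-(d.cost L + 144 * δ ^ 2 * ((N : ℝ) + 1))) ≤
      |∫ x, Real.cos (Real.pi * d.u N * x) ∂nu| := by
  refine le_abs_integral_cos lam_nonneg lam_lt_one _ _ fun K ↦ ?_
  simp only [phase_eq]
  set s : Finset ℤ := (range K).image fun n : ℕ ↦ (N : ℤ) - n with hs
  have hinj : Set.InjOn (fun n : ℕ ↦ (N : ℤ) - n) ↑(range K) := fun a _ b _ hab ↦ by
    simp only at hab; omega
  rw [← prod_image (f := fun k ↦ g (d.u k)) hinj, ← hs,
    prod_congr rfl fun k _ ↦ g_eq_exp (h.g_pos hm k), ← Real.exp_sum, Real.exp_le_exp,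
    sum_neg_distrib, neg_le_neg_iff]
  have hsN : ∀ k ∈ s, k ≤ (N : ℤ) := fun k hk ↦ by
    obtain ⟨n, _, rfl⟩ := mem_image.1 hk; omega
  rw [← sum_filter_add_sum_filter_not s (fun k ↦ k ∈ Finset.Icc (-(L : ℤ)) L)]
  refine add_le_add ?_ ?_
  · exact sum_le_sum_of_subset_of_nonneg (fun k hk ↦ (mem_filter.1 hk).2)
      fun k _ _ ↦ f_nonneg _
  · set t := s.filter fun k ↦ ¬k ∈ Finset.Icc (-(L : ℤ)) L with ht
    have hout : ∀ k ∈ t, k < -(L : ℤ) ∨ (L : ℤ) < k := fun k hk ↦ by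
      have := (mem_filter.1 hk).2
      rwa [Finset.mem_Icc, not_and_or, not_le, not_le] at this
    refine (sum_le_sum fun k hk ↦ (h.far (hout k hk)).2).trans ?_
    rw [sum_ite, ← mul_sum, sum_const, nsmul_eq_mul]
    have h1 := sum_geom_le (t.filter fun k ↦ k ≤ -(L : ℤ)) (-(L : ℤ))
      fun k hk ↦ (mem_filter.1 hk).2
    simp only [sub_neg_eq_add] at h1
    have h2 : ((t.filter fun k ↦ ¬k ≤ -(L : ℤ)).card : ℝ) ≤ N := by
      have hsub : (t.filter fun k ↦ ¬k ≤ -(L : ℤ)) ⊆ Finset.Icc (1 : ℤ) N := by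
        intro k hk
        obtain ⟨hk1, hk2⟩ := mem_filter.1 hk
        have := hsN k (mem_filter.1 hk1).1
        rcases hout k hk1 with h' | h'
        · omega
        · exact Finset.mem_Icc.2 ⟨by omega, this⟩
      have := card_le_card hsub
      simp only [Int.card_Icc, add_sub_cancel_right, Int.toNat_natCast] at this
      exact_mod_cast this
    nlinarith [sq_nonneg δ]

/-- Upper bound for the coefficient at `π (s β^(N+D) ± s β^N)`. -/
lemma Valid.upper (h : Valid d L δ m) (hm : 0 < m) {N D : ℕ} (hN : L ≤ N)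
    (hD : 2 * L + 1 ≤ D) {e : ℝ} (he : e = 1 ∨ e = -1) :
    |∫ x, Real.cos (Real.pi * (d.u ((N : ℤ) + D) + e * d.u N) * x) ∂nu| ≤
      Real.exp (-(2 * d.cost L) + 24 * ((2 * (L : ℝ) + 1) * δ / m)) := by
  have hδ := h.δ_pos
  set c1 := Finset.Icc (-(L : ℤ)) L with hc1
  set c2 := c1.image fun k ↦ k - (D : ℤ) with hc2
  have hdisj : Disjoint c1 c2 := by
    rw [Finset.disjoint_left]
    intro k hk hk'
    obtain ⟨j, hj, rfl⟩ := mem_image.1 hk'
    have := Finset.mem_Icc.1 hk; have := Finset.mem_Icc.1 hj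
    omega
  have hle : ∀ k ∈ c1 ∪ c2, k ≤ (N : ℤ) := by
    intro k hk
    rcases mem_union.1 hk with hk | hk
    · have := Finset.mem_Icc.1 hk; omega
    · obtain ⟨j, hj, rfl⟩ := mem_image.1 hk
      have := Finset.mem_Icc.1 hj; omega
  set V : ℤ → ℝ := fun k ↦ d.u (k + D) + e * d.u k with hV
  have hcos : ∀ n : ℕ, |Real.cos (Real.pi * (d.u ((N : ℤ) + D) + e * d.u N) * beta⁻¹ ^ n)| =
      g (V ((N : ℤ) - n)) := by
    intro n
    simp only [hV, g, Data.u, ← beta_zpow_sub,
      show (N : ℤ) - n + D = ((N : ℤ) + D) - n by ring]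
    ring_nf
  refine (abs_integral_cos_le lam_nonneg lam_lt_one _
    ((c1 ∪ c2).image fun k ↦ ((N : ℤ) - k).toNat)).trans ?_
  simp only [hcos]
  have hinj : Set.InjOn (fun k ↦ ((N : ℤ) - k).toNat) ↑(c1 ∪ c2) := by
    intro a ha b hb hab
    simp only at hab
    have := hle a ha; have := hle b hb; omega
  rw [prod_image hinj]
  have hval : ∀ k ∈ c1 ∪ c2, g (V ((N : ℤ) - ((((N : ℤ) - k).toNat : ℕ) : ℤ))) = g (V k) := by
    intro k hk; have := hle k hk
    rw [show (N : ℤ) - ((((N : ℤ) - k).toNat : ℕ) : ℤ) = k by omega]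
  rw [prod_congr rfl hval, prod_union hdisj]
  have hbound : ∀ k ∈ c1,
      g (V k) ≤ Real.exp (-f (d.u k) + 12 * δ / m) ∧
      g (V (k - D)) ≤ Real.exp (-f (d.u k) + 12 * δ / m) := by
    intro k hk
    have hk' := Finset.mem_Icc.1 hk
    have hg := h.core k hk
    have key : g (d.u k) + 4 * (3 * δ) ≤ Real.exp (-f (d.u k) + 12 * δ / m) := by
      rw [Real.exp_add, ← g_eq_exp (hm.trans_le hg)]
      have h1 := Real.add_one_le_exp (12 * δ / m)
      have h2 : 12 * δ ≤ g (d.u k) * (12 * δ / m) := by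
        rw [mul_div, le_div_iff₀ hm]; nlinarith
      nlinarith [g_nonneg (d.u k), mul_le_mul_of_nonneg_left h1 (g_nonneg (d.u k))]
    have hge : g (e * d.u k) = g (d.u k) := by
      rcases he with rfl | rfl <;> simp [g_neg]
    constructor
    · obtain ⟨n, hn⟩ := d.u_eq_z h.integral (k + D)
      have hy := h.z_right (k := k + D) (by omega)
      have := g_add_le (x := e * d.u k) hy
      rw [hge] at this
      rw [hV]; simp only
      rw [hn, show d.z (k + D) + (n : ℝ) + e * d.u k = e * d.u k + d.z (k + D) + n by ring,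
        g_add_int]
      linarith
    · have hy : |e * d.u (k - D)| ≤ 3 * δ := by
        have := h.u_left' (k := k - D) (by omega)
        rcases he with rfl | rfl <;> simp only [one_mul, neg_mul, abs_neg] <;> linarith
      rw [hV]; simp only [sub_add_cancel]
      linarith [g_add_le (x := d.u k) hy]
  have hc2' : ∏ k ∈ c2, g (V k) = ∏ k ∈ c1, g (V (k - D)) := by
    rw [hc2, prod_image]
    exact fun x _ y _ hxy ↦ by simpa using hxy
  rw [hc2']
  have hprod : ∏ k ∈ c1, Real.exp (-f (d.u k) + 12 * δ / m) =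
      Real.exp (-d.cost L + (2 * (L : ℝ) + 1) * (12 * δ / m)) := by
    rw [← Real.exp_sum, sum_add_distrib, sum_neg_distrib, sum_const, nsmul_eq_mul, hc1,
      Int.card_Icc, show (L : ℤ) + 1 - -(L : ℤ) = ((2 * L + 1 : ℕ) : ℤ) by push_cast; ring,
      Int.toNat_natCast]
    push_cast; rfl
  calc (∏ k ∈ c1, g (V k)) * ∏ k ∈ c1, g (V (k - D))
      ≤ (∏ k ∈ c1, Real.exp (-f (d.u k) + 12 * δ / m)) *
          ∏ k ∈ c1, Real.exp (-f (d.u k) + 12 * δ / m) := by
        exact mul_le_mul (prod_le_prod (fun _ _ ↦ g_nonneg _) fun k hk ↦ (hbound k hk).1)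
          (prod_le_prod (fun _ _ ↦ g_nonneg _) fun k hk ↦ (hbound k hk).2)
          (prod_nonneg fun _ _ ↦ g_nonneg _) (prod_nonneg fun _ _ ↦ (Real.exp_pos _).le)
    _ = _ := by rw [hprod, ← Real.exp_add]; congr 1; ring

lemma integral_cos_const {c R : ℝ} (hc : c ≠ 0) :
    |∫ x in (-R)..R, Real.cos (c * x)| ≤ 2 / |c| := by
  rw [intervalIntegral.integral_comp_mul_left (fun x ↦ Real.cos x) hc, integral_cos, smul_eq_mul,
    abs_mul, abs_inv, ← div_eq_inv_mul]
  refine div_le_div_of_nonneg_right ((abs_sub _ _).trans ?_) (abs_nonneg _)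
  linarith [Real.abs_sin_le_one (c * R), Real.abs_sin_le_one (c * -R)]

lemma self_le_exp_half {M : ℝ} (hM : 0 ≤ M) : M ≤ Real.exp (M / 2) := by
  have := Real.quadratic_le_exp_of_nonneg (show 0 ≤ M / 2 by linarith)
  nlinarith [sq_nonneg (M - 2)]

/-- The abstract second moment test. -/
lemma test_set (M : ℕ) (hM : 0 < M) (ξ : ℕ → ℝ) {a lo up R : ℝ} (ha : 0 < a) (hR : 0 < R)
    (hsupp : nu (Set.Icc (-R) R)ᶜ = 0)
    (hlo : ∀ j, j < M → a * lo ≤ |∫ x, Real.cos (ξ j * x) ∂nu|)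
    (hup : ∀ i j, i < j → |∫ x, Real.cos ((ξ j + ξ i) * x) ∂nu| ≤ a ^ 2 * up ∧
      |∫ x, Real.cos ((ξ j - ξ i) * x) ∂nu| ≤ a ^ 2 * up)
    (hup0 : 0 ≤ up)
    (hgap : ∀ i j, i < j → (M : ℝ) ≤ ξ j - ξ i ∧ (M : ℝ) ≤ ξ j + ξ i) :
    ∃ S : Set ℝ, MeasurableSet S ∧
      (nu Sᶜ).toReal ≤ 4 * (1 / ((M : ℝ) * a ^ 2) + up - 2 * lo + 1) ∧
      (volume S).toReal ≤ 4 * ((2 * R + 2) / ((M : ℝ) * a ^ 2)) ∧ volume S ≠ ⊤ := by
  set ε : ℕ → ℝ := fun j ↦ if 0 ≤ ∫ x, Real.cos (ξ j * x) ∂nu then 1 else -1 with hε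
  have hεabs : ∀ j, |ε j| = 1 := fun j ↦ by simp only [hε]; split <;> simp
  have hεmul : ∀ j, ε j * ∫ x, Real.cos (ξ j * x) ∂nu = |∫ x, Real.cos (ξ j * x) ∂nu| := by
    intro j; simp only [hε]; split_ifs with hj
    · rw [one_mul, abs_of_nonneg hj]
    · rw [neg_one_mul, abs_of_neg (not_le.1 hj)]
  set T : ℝ → ℝ := fun x ↦ (∑ j ∈ range M, ε j * Real.cos (ξ j * x)) / ((M : ℝ) * a) with hT
  have hTc : Continuous T := by rw [hT]; fun_prop
  have hMpos : (0 : ℝ) < M := by exact_mod_cast hM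
  have hint : ∀ (μ : Measure ℝ) [IsFiniteMeasure μ] (c : ℝ),
      Integrable (fun x ↦ Real.cos (c * x)) μ := fun μ _ c ↦
    Integrable.of_bound (by fun_prop) 1
      (Eventually.of_forall fun x ↦ by rw [Real.norm_eq_abs]; exact Real.abs_cos_le_one _)
  have hint2 : ∀ (μ : Measure ℝ) [IsFiniteMeasure μ] (c c' : ℝ),
      Integrable (fun x ↦ Real.cos (c * x) * Real.cos (c' * x)) μ := fun μ _ c c' ↦
    Integrable.of_bound (by fun_prop) 1 (Eventually.of_forall fun x ↦ by
      rw [Real.norm_eq_abs, abs_mul]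
      exact mul_le_one₀ (Real.abs_cos_le_one _) (abs_nonneg _) (Real.abs_cos_le_one _))
  -- second moment for a finite measure
  have second : ∀ (μ : Measure ℝ) [IsFiniteMeasure μ] (A B : ℝ), 0 ≤ B →
      (∀ c : ℝ, |∫ x, Real.cos (c * x) * Real.cos (c * x) ∂μ| ≤ A) →
      (∀ i j, i < j → |∫ x, Real.cos (ξ i * x) * Real.cos (ξ j * x) ∂μ| ≤ B) →
      ∫ x, T x ^ 2 ∂μ ≤ ((M : ℝ) * A + (M : ℝ) ^ 2 * B) / ((M : ℝ) * a) ^ 2 := by
    intro μ _ A B hB hA hBij
    have e : ∀ x, T x ^ 2 = (∑ i ∈ range M, ∑ j ∈ range M,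
        ε i * ε j * (Real.cos (ξ i * x) * Real.cos (ξ j * x))) / ((M : ℝ) * a) ^ 2 := by
      intro x
      rw [hT]; simp only
      rw [div_pow, sq (∑ j ∈ range M, ε j * Real.cos (ξ j * x)), sum_mul_sum]
      congr 1
      exact sum_congr rfl fun i _ ↦ sum_congr rfl fun j _ ↦ by ring
    simp only [e]
    rw [integral_div]
    refine div_le_div_of_nonneg_right ?_ (sq_nonneg _)
    rw [integral_finsetSum _ fun i _ ↦ integrable_finsetSum _ fun j _ ↦
      (hint2 μ _ _).const_mul _]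
    simp only [integral_finsetSum _ fun j _ ↦ (hint2 μ _ _).const_mul _, integral_const_mul]
    calc ∑ i ∈ range M, ∑ j ∈ range M,
          ε i * ε j * ∫ x, Real.cos (ξ i * x) * Real.cos (ξ j * x) ∂μ
        ≤ ∑ i ∈ range M, ∑ j ∈ range M, ((if i = j then A else 0) + B) := by
          refine sum_le_sum fun i _ ↦ sum_le_sum fun j _ ↦ (le_abs_self _).trans ?_
          rw [abs_mul, abs_mul, hεabs, hεabs, one_mul, one_mul]
          rcases lt_trichotomy i j with hij | hij | hij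
          · rw [if_neg hij.ne, zero_add]; exact hBij i j hij
          · subst hij; rw [if_pos rfl]; linarith [hA (ξ i)]
          · rw [if_neg hij.ne', zero_add]
            simp only [mul_comm (Real.cos (ξ i * _))]; exact hBij j i hij
      _ = (M : ℝ) * A + (M : ℝ) ^ 2 * B := by
          have : ∀ i ∈ range M, ∑ j ∈ range M, ((if i = j then A else 0) + B) = A + M * B := by
            intro i hi
            rw [sum_add_distrib, sum_ite_eq, if_pos hi, sum_const, card_range, nsmul_eq_mul]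
          rw [sum_congr rfl this, sum_const, card_range, nsmul_eq_mul]; ring
  have hcc : ∀ (μ : Measure ℝ) [IsFiniteMeasure μ] (c c' : ℝ),
      |∫ x, Real.cos (c * x) * Real.cos (c' * x) ∂μ| ≤
        (|∫ x, Real.cos ((c' + c) * x) ∂μ| + |∫ x, Real.cos ((c' - c) * x) ∂μ|) / 2 := by
    intro μ _ c c'
    have e : ∀ x, Real.cos (c * x) * Real.cos (c' * x) =
        (Real.cos ((c' + c) * x) + Real.cos ((c' - c) * x)) / 2 := by
      intro x; rw [add_mul, sub_mul, Real.cos_add, Real.cos_sub]; ring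
    simp only [e]
    rw [integral_div, integral_add (hint μ _) (hint μ _), abs_div, abs_two]
    exact div_le_div_of_nonneg_right (abs_add_le _ _) zero_le_two
  -- moments under nu
  have n1 : lo ≤ ∫ x, T x ∂nu := by
    rw [hT]; simp only
    rw [integral_div, integral_finsetSum _ fun j _ ↦ (hint nu _).const_mul _,
      le_div_iff₀ (by positivity)]
    simp only [integral_const_mul, hεmul]
    calc lo * ((M : ℝ) * a) = ∑ _j ∈ range M, a * lo := by
          rw [sum_const, card_range, nsmul_eq_mul]; ring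
      _ ≤ _ := sum_le_sum fun j hj ↦ hlo j (mem_range.1 hj)
  have n2 : ∫ x, T x ^ 2 ∂nu ≤ 1 / ((M : ℝ) * a ^ 2) + up := by
    refine (second nu 1 (a ^ 2 * up) (by positivity) (fun c ↦ ?_) fun i j hij ↦ ?_).trans
      (le_of_eq ?_)
    · refine (abs_integral_le_integral_abs).trans ?_
      refine (integral_mono (hint2 nu c c).abs (integrable_const 1) fun x ↦ ?_).trans ?_
      · rw [abs_mul]
        exact mul_le_one₀ (Real.abs_cos_le_one _) (abs_nonneg _) (Real.abs_cos_le_one _)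
      · simp
    · obtain ⟨h1, h2⟩ := hup i j hij
      linarith [hcc nu (ξ i) (ξ j)]
    · field_simp
  have hTb : ∀ (μ : Measure ℝ) [IsFiniteMeasure μ], Integrable T μ ∧
      Integrable (fun x ↦ T x ^ 2) μ := by
    intro μ _
    have hb : ∀ x, |T x| ≤ 1 / a := by
      intro x
      rw [hT]; simp only
      rw [abs_div, abs_of_pos (mul_pos hMpos ha), div_le_div_iff₀ (mul_pos hMpos ha) ha, one_mul]
      refine mul_le_mul_of_nonneg_right ((abs_sum_le_sum_abs _ _).trans ?_) ha.le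
      calc ∑ j ∈ range M, |ε j * Real.cos (ξ j * x)| ≤ ∑ _j ∈ range M, (1 : ℝ) :=
            sum_le_sum fun j _ ↦ by
              rw [abs_mul, hεabs, one_mul]; exact Real.abs_cos_le_one _
        _ = M := by simp
    refine ⟨Integrable.of_bound hTc.aestronglyMeasurable (1 / a)
        (Eventually.of_forall fun x ↦ by rw [Real.norm_eq_abs]; exact hb x),
      Integrable.of_bound (hTc.pow 2).aestronglyMeasurable ((1 / a) ^ 2)
        (Eventually.of_forall fun x ↦ ?_)⟩
    rw [Real.norm_eq_abs, abs_pow]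
    exact pow_le_pow_left₀ (abs_nonneg _) (hb x) 2
  refine ⟨Set.Icc (-R) R ∩ {x | 1 / 2 < T x},
    measurableSet_Icc.inter (measurableSet_lt measurable_const hTc.measurable), ?_, ?_, ?_⟩
  · have hsub : (Set.Icc (-R) R ∩ {x | 1 / 2 < T x})ᶜ ⊆
        (Set.Icc (-R) R)ᶜ ∪ {x | 1 / 4 ≤ (T x - 1) ^ 2} := by
      intro x hx
      by_cases h1 : x ∈ Set.Icc (-R) R
      · refine Or.inr ?_
        have : T x ≤ 1 / 2 := not_lt.1 fun h2 ↦ hx ⟨h1, h2⟩
        show 1 / 4 ≤ (T x - 1) ^ 2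
        nlinarith
      · exact Or.inl h1
    have h1 : nu (Set.Icc (-R) R ∩ {x | 1 / 2 < T x})ᶜ ≤ nu {x | 1 / 4 ≤ (T x - 1) ^ 2} := by
      refine (measure_mono hsub).trans ((measure_union_le _ _).trans ?_)
      rw [hsupp, zero_add]
    obtain ⟨iT, iT2⟩ := hTb nu
    have e : ∀ x, (T x - 1) ^ 2 = T x ^ 2 - 2 * T x + 1 := fun x ↦ by ring
    have h2 := mul_meas_ge_le_integral_of_nonneg (μ := nu) (f := fun x ↦ (T x - 1) ^ 2)
      (Eventually.of_forall fun x ↦ sq_nonneg _)
      (by simp only [e]; exact (iT2.sub (iT.const_mul 2)).add (integrable_const 1)) (1 / 4)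
    have h3 : ∫ x, (T x - 1) ^ 2 ∂nu = (∫ x, T x ^ 2 ∂nu) - 2 * (∫ x, T x ∂nu) + 1 := by
      simp only [e]
      rw [integral_add (f := fun x ↦ T x ^ 2 - 2 * T x) (iT2.sub (iT.const_mul 2))
        (integrable_const 1), integral_sub iT2 (iT.const_mul 2), integral_const_mul]
      simp
    rw [measureReal_def, h3] at h2
    have h4 := ENNReal.toReal_mono (measure_ne_top _ _) h1
    linarith
  · set μ := volume.restrict (Set.Icc (-R) R) with hμ
    have : IsFiniteMeasure μ :=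
      isFiniteMeasure_restrict.2 (by rw [Real.volume_Icc]; exact ENNReal.ofReal_ne_top)
    have hsub : Set.Icc (-R) R ∩ {x | 1 / 2 < T x} ⊆ {x | 1 / 4 ≤ T x ^ 2} ∩ Set.Icc (-R) R := by
      rintro x ⟨h1, h2⟩
      refine ⟨?_, h1⟩
      show 1 / 4 ≤ T x ^ 2
      have : 1 / 2 < T x := h2
      nlinarith
    have h1 : volume (Set.Icc (-R) R ∩ {x | 1 / 2 < T x}) ≤ μ {x | 1 / 4 ≤ T x ^ 2} := by
      rw [hμ, Measure.restrict_apply' measurableSet_Icc]
      exact measure_mono hsub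
    have h2 := mul_meas_ge_le_integral_of_nonneg (μ := μ) (f := fun x ↦ T x ^ 2)
      (Eventually.of_forall fun x ↦ sq_nonneg _) (hTb μ).2 (1 / 4)
    have hlen : μ.real Set.univ = 2 * R := by
      rw [hμ, measureReal_restrict_apply_univ, Real.volume_real_Icc_of_le (by linarith)]; ring
    have hI : ∀ c : ℝ, c ≠ 0 → |∫ x, Real.cos (c * x) ∂μ| ≤ 2 / |c| := by
      intro c hc
      rw [hμ, MeasureTheory.integral_Icc_eq_integral_Ioc,
        ← intervalIntegral.integral_of_le (by linarith)]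
      exact integral_cos_const hc
    have h3 : ∫ x, T x ^ 2 ∂μ ≤ (2 * R + 2) / ((M : ℝ) * a ^ 2) := by
      refine (second μ (2 * R) (2 / (M : ℝ)) (by positivity) (fun c ↦ ?_) fun i j hij ↦ ?_).trans
        (le_of_eq ?_)
      · refine (abs_integral_le_integral_abs).trans ?_
        refine (integral_mono (hint2 μ c c).abs (integrable_const 1) fun x ↦ ?_).trans ?_
        · rw [abs_mul]
          exact mul_le_one₀ (Real.abs_cos_le_one _) (abs_nonneg _) (Real.abs_cos_le_one _)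
        · rw [integral_const, hlen]; simp
      · obtain ⟨g1, g2⟩ := hgap i j hij
        have a1 := (hI (ξ j + ξ i) (by linarith)).trans
          (div_le_div_of_nonneg_left zero_le_two hMpos (g2.trans (le_abs_self _)))
        have a2 := (hI (ξ j - ξ i) (by linarith)).trans
          (div_le_div_of_nonneg_left zero_le_two hMpos (g1.trans (le_abs_self _)))
        linarith [hcc μ (ξ i) (ξ j)]
      · field_simp
    rw [measureReal_def] at h2
    have h4 := ENNReal.toReal_mono (measure_ne_top _ _) h1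
    linarith
  · exact ne_top_of_le_ne_top (by rw [Real.volume_Icc]; exact ENNReal.ofReal_ne_top)
      (measure_mono Set.inter_subset_left)

end Vale.Agent.P105
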