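import Vale.Agent.P105.Arith

/-!
The functions `g x = |cos (π x)|`, `f = -log g`, phase data of an element and the step lemma.
-/

namespace Vale.Agent.P105

open Finset

/-- `|cos (π x)|`. -/
noncomputable def g (x : ℝ) : ℝ := |Real.cos (Real.pi * x)|

/-- `-log |cos (π x)|`. -/
noncomputable def f (x : ℝ) : ℝ := -Real.log (g x)

lemma g_nonneg (x : ℝ) : 0 ≤ g x := abs_nonneg _

lemma g_le_one (x : ℝ) : g x ≤ 1 := Real.abs_cos_le_one _

lemma g_add_int (x : ℝ) (n : ℤ) : g (x + n) = g x := by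
  unfold g
  rw [mul_add, show Real.pi * (n : ℝ) = (n : ℝ) * Real.pi by ring, Real.cos_add_int_mul_pi,
    abs_mul]
  simp

lemma f_add_int (x : ℝ) (n : ℤ) : f (x + n) = f x := by rw [f, f, g_add_int]

lemma g_neg (x : ℝ) : g (-x) = g x := by simp [g]

lemma f_neg (x : ℝ) : f (-x) = f x := by rw [f, f, g_neg]

lemma f_nonneg (x : ℝ) : 0 ≤ f x :=
  neg_nonneg.2 (Real.log_nonpos (g_nonneg x) (g_le_one x))

lemma g_sub_le (x y : ℝ) : g x - g y ≤ 4 * |x - y| := by
  have h1 : |Real.cos (Real.pi * x) - Real.cos (Real.pi * y)| ≤ |Real.pi * x - Real.pi * y| :=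
    Real.abs_cos_sub_cos_le _ _
  have h2 : |Real.pi * x - Real.pi * y| ≤ 4 * |x - y| := by
    rw [← mul_sub, abs_mul, abs_of_pos Real.pi_pos]
    exact mul_le_mul_of_nonneg_right Real.pi_le_four (abs_nonneg _)
  have := abs_sub_abs_le_abs_sub (Real.cos (Real.pi * x)) (Real.cos (Real.pi * y))
  unfold g; linarith

lemma g_add_ge {x y e : ℝ} (h : |y| ≤ e) : g x - 4 * e ≤ g (x + y) := by
  have := g_sub_le x (x + y)
  rw [show x - (x + y) = -y by ring, abs_neg] at this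
  linarith

lemma g_add_le {x y e : ℝ} (h : |y| ≤ e) : g (x + y) ≤ g x + 4 * e := by
  have := g_sub_le (x + y) x
  rw [show x + y - x = y by ring] at this
  linarith

lemma g_small {y e : ℝ} (h : |y| ≤ e) (he : e ≤ 1 / 5) : 1 - 8 * e ^ 2 ≤ g y := by
  have h1 := Real.one_sub_sq_div_two_le_cos (x := Real.pi * y)
  have h2 : (Real.pi * y) ^ 2 ≤ 16 * e ^ 2 := by
    rw [mul_pow]
    have : y ^ 2 ≤ e ^ 2 := by nlinarith [abs_nonneg y, sq_abs y]
    have hp : Real.pi ^ 2 ≤ 16 := by nlinarith [Real.pi_le_four, Real.pi_pos]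
    exact mul_le_mul hp this (sq_nonneg _) (by norm_num)
  have := le_abs_self (Real.cos (Real.pi * y))
  unfold g; linarith

lemma f_small {y e : ℝ} (h : |y| ≤ e) (he : e ≤ 1 / 5) : f y ≤ 16 * e ^ 2 := by
  have he0 : 0 ≤ e := (abs_nonneg y).trans h
  have h1 := g_small h he
  have h2 : 1 / 2 ≤ 1 - 8 * e ^ 2 := by nlinarith
  have hg : 0 < g y := by linarith
  have h3 := Real.one_sub_inv_le_log_of_pos hg
  have h4 : (g y)⁻¹ ≤ 1 + 16 * e ^ 2 := by
    rw [inv_le_iff_one_le_mul₀' hg]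
    nlinarith [mul_le_mul_of_nonneg_right h1 (show (0:ℝ) ≤ 1 + 16 * e ^ 2 by positivity)]
  unfold f; linarith

lemma f_add_le {x y e m : ℝ} (h : |y| ≤ e) (hm : 0 < m) (hg : m ≤ g x) (h8 : 8 * e ≤ m) :
    f (x + y) ≤ f x + 8 * e / m := by
  have he0 : 0 ≤ e := (abs_nonneg y).trans h
  have h1 := g_add_ge (x := x) h
  have hgx : 0 < g x := lt_of_lt_of_le hm hg
  have h2 : m / 2 ≤ g (x + y) := by linarith
  have hgy : 0 < g (x + y) := by linarith
  have h3 : Real.log (g x / g (x + y)) ≤ g x / g (x + y) - 1 :=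
    Real.log_le_sub_one_of_pos (div_pos hgx hgy)
  rw [Real.log_div hgx.ne' hgy.ne'] at h3
  have h4 : g x / g (x + y) - 1 ≤ 8 * e / m := by
    rw [div_sub_one hgy.ne']
    calc (g x - g (x + y)) / g (x + y) ≤ 4 * e / g (x + y) := by gcongr; linarith
      _ ≤ 4 * e / (m / 2) := by gcongr
      _ = 8 * e / m := by field_simp; ring
  unfold f; linarith

lemma g_eq_exp {x : ℝ} (h : 0 < g x) : g x = Real.exp (-f x) := by
  rw [f, neg_neg, Real.exp_log h]

/-- An element of the module: embeddings `s`, `t` (real) and `c` (complex). -/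
structure Data where
  s : ℝ
  t : ℝ
  c : ℂ

/-- The trace sequence of the element is integral. -/
def Data.Integral (d : Data) : Prop :=
  ∀ k : ℤ, ∃ n : ℤ, d.s * beta ^ k + d.t * beta ^ (-k) + 2 * (d.c * zeta ^ k).re = n

/-- Phase at position `k`. -/
noncomputable def Data.u (d : Data) (k : ℤ) : ℝ := d.s * beta ^ k

/-- Representative of the phase mod `1` that is small for large `k`. -/
noncomputable def Data.z (d : Data) (k : ℤ) : ℝ :=
  -(d.t * beta ^ (-k) + 2 * (d.c * zeta ^ k).re)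

/-- The element times `β^q - 1`. -/
noncomputable def Data.up (d : Data) (q : ℕ) : Data :=
  ⟨d.s * (beta ^ q - 1), d.t * ((beta ^ q)⁻¹ - 1), d.c * (zeta ^ q - 1)⟩

lemma Data.u_eq_z {d : Data} (h : d.Integral) (k : ℤ) : ∃ n : ℤ, d.u k = d.z k + n := by
  obtain ⟨n, hn⟩ := h k
  exact ⟨n, by unfold Data.u Data.z; linarith⟩

lemma Data.g_u_eq {d : Data} (h : d.Integral) (k : ℤ) : g (d.u k) = g (d.z k) := by
  obtain ⟨n, hn⟩ := d.u_eq_z h k
  rw [hn, g_add_int]

lemma Data.f_u_eq {d : Data} (h : d.Integral) (k : ℤ) : f (d.u k) = f (d.z k) := by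
  rw [f, f, d.g_u_eq h]

lemma Data.up_u (d : Data) (q : ℕ) (k : ℤ) :
    (d.up q).u k = d.u (k + q) - d.u k := by
  simp only [Data.u, Data.up, zpow_add₀ beta_ne_zero, zpow_natCast]; ring

lemma Data.up_integral {d : Data} (h : d.Integral) (q : ℕ) : (d.up q).Integral := by
  intro k
  obtain ⟨a, ha⟩ := h (k + q)
  obtain ⟨b, hb⟩ := h k
  refine ⟨a - b, ?_⟩
  have e1 : d.c * zeta ^ (k + (q : ℤ)) = d.c * zeta ^ q * zeta ^ k := by
    rw [zpow_add₀ zeta_ne_zero, zpow_natCast]; ring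
  have e2 : d.c * (zeta ^ q - 1) * zeta ^ k = d.c * zeta ^ q * zeta ^ k - d.c * zeta ^ k := by
    ring
  simp only [Data.up]
  rw [e2, Complex.sub_re]
  rw [e1, neg_add, zpow_add₀ beta_ne_zero, zpow_add₀ beta_ne_zero, zpow_neg beta (q : ℤ),
    zpow_natCast] at ha
  push_cast
  linear_combination ha - hb

/-- The base element `1`. -/
def Data.base : Data := ⟨1, 1, 1⟩

lemma Data.base_integral : Data.base.Integral := by
  intro k; obtain ⟨n, hn⟩ := trace_int k; exact ⟨n, by simpa [Data.base] using hn⟩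

lemma abs_re_mul_le (c : ℂ) (k : ℤ) : |(c * zeta ^ k).re| ≤ ‖c‖ := by
  refine (Complex.abs_re_le_norm _).trans ?_
  rw [norm_mul, zeta_zpow_norm, mul_one]

/-- Quantitative hypotheses on an element with core `[-L, L]`. -/
structure Valid (d : Data) (L : ℕ) (δ m : ℝ) : Prop where
  integral : d.Integral
  s_ge : 1 ≤ d.s
  s_le : d.s ≤ δ * beta ^ L
  t_le : |d.t| ≤ 1
  L_le : 1 ≤ δ * beta ^ L
  c_le : ‖d.c‖ ≤ δ
  δ_pos : 0 < δ
  δ_le : δ ≤ 1 / 40
  core : ∀ k ∈ Icc (-(L : ℤ)) L, m ≤ g (d.u k)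

/-- The weight exponent. -/
noncomputable def Data.cost (d : Data) (L : ℕ) : ℝ := ∑ k ∈ Icc (-(L : ℤ)) L, f (d.u k)

lemma Data.cost_nonneg (d : Data) (L : ℕ) : 0 ≤ d.cost L := sum_nonneg fun _ _ ↦ f_nonneg _

variable {d : Data} {L : ℕ} {δ m : ℝ}

lemma Valid.u_left (h : Valid d L δ m) (k : ℤ) : |d.u k| ≤ δ * beta ^ (k + L) := by
  have hp : 0 < beta ^ k := zpow_pos beta_pos k
  rw [Data.u, abs_of_nonneg (mul_nonneg (by linarith [h.s_ge]) hp.le), zpow_add₀ beta_ne_zero,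
    zpow_natCast]
  nlinarith [h.s_le, mul_le_mul_of_nonneg_right h.s_le hp.le]

lemma Valid.u_left' (h : Valid d L δ m) {k : ℤ} (hk : k ≤ -(L : ℤ)) : |d.u k| ≤ δ := by
  refine (h.u_left k).trans ?_
  have : beta ^ (k + (L : ℤ)) ≤ 1 := zpow_le_one_of_nonpos₀ one_lt_beta.le (by omega)
  nlinarith [h.δ_pos]

lemma z_bound (d : Data) (ht : |d.t| ≤ 1) (k : ℤ) :
    |d.z k| ≤ beta ^ (-k) + 2 * ‖d.c‖ := by
  rw [Data.z, abs_neg]
  refine (abs_add_le _ _).trans (add_le_add ?_ ?_)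
  · rw [abs_mul, abs_of_pos (zpow_pos beta_pos _)]
    exact mul_le_of_le_one_left (zpow_pos beta_pos _).le ht
  · rw [abs_mul, abs_two]
    exact mul_le_mul_of_nonneg_left (abs_re_mul_le _ _) zero_le_two

lemma Valid.beta_neg_le (h : Valid d L δ m) (k : ℤ) :
    beta ^ (-k) ≤ δ * beta ^ ((L : ℤ) - k) := by
  rw [sub_eq_add_neg, zpow_add₀ beta_ne_zero, zpow_natCast, ← mul_assoc]
  exact le_mul_of_one_le_left (zpow_pos beta_pos _).le h.L_le

lemma Valid.z_right (h : Valid d L δ m) {k : ℤ} (hk : (L : ℤ) ≤ k) : |d.z k| ≤ 3 * δ := by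
  refine (z_bound d h.t_le k).trans ?_
  have h1 := h.beta_neg_le k
  have : beta ^ ((L : ℤ) - k) ≤ 1 := zpow_le_one_of_nonpos₀ one_lt_beta.le (by omega)
  nlinarith [h.c_le, h.δ_pos]

/-- Geometric sums to the left of a position. -/
lemma sum_geom_le (s : Finset ℤ) (a : ℤ) (hs : ∀ k ∈ s, k ≤ a) :
    ∑ k ∈ s, (beta ^ (k - a)) ^ 2 ≤ 2 := by
  have hr0 : 0 ≤ (beta ^ 2)⁻¹ := by positivity
  have hr1 : (beta ^ 2)⁻¹ ≤ 1 / 2 := by
    rw [one_div]; exact inv_anti₀ two_pos (by nlinarith [beta_lb])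
  have heq : ∑ k ∈ s, (beta ^ (k - a)) ^ 2 =
      ∑ j ∈ s.image (fun k ↦ (a - k).toNat), ((beta ^ 2)⁻¹) ^ j := by
    rw [sum_image]
    · refine sum_congr rfl fun k hk ↦ ?_
      have := hs k hk
      have e : k - a = -(((a - k).toNat : ℕ) : ℤ) := by omega
      rw [e, zpow_neg, zpow_natCast, inv_pow, inv_pow, ← pow_mul, ← pow_mul, mul_comm]
    · intro x hx y hy hxy
      have := hs x hx; have := hs y hy
      simp only at hxy; omega
  rw [heq]
  calc ∑ j ∈ _, ((beta ^ 2)⁻¹) ^ j ≤ ∑' j, ((beta ^ 2)⁻¹) ^ j :=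
        (summable_geometric_of_lt_one hr0 (by linarith)).sum_le_tsum _ fun j _ ↦ pow_nonneg hr0 j
    _ = (1 - (beta ^ 2)⁻¹)⁻¹ := tsum_geometric_of_lt_one hr0 (by linarith)
    _ ≤ 2 := by
        rw [inv_le_comm₀ (by linarith) two_pos]; linarith

/-- The step lemma. -/
lemma Valid.step (h : Valid d L δ m) {q w : ℕ} {δ' m' : ℝ} (hq : 2 * L + 1 ≤ q)
    (hm : 0 < m) (hm2 : m ≤ 1 / 2) (h24 : 24 * δ ≤ m)
    (hδ' : ‖zeta ^ q - 1‖ * δ ≤ δ') (hδ'0 : 0 < δ') (hδ'le : δ' ≤ δ)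
    (hw : δ ≤ δ' * beta ^ w) (hm' : m' ≤ m - 12 * δ) :
    Valid (d.up q) (L + q + w) δ' m' ∧
    (d.up q).cost (L + q + w) ≤ 2 * d.cost L + 48 * ((2 * (L : ℝ) + 1) * δ / m) +
      256 * δ ^ 2 * ((q : ℝ) + 1) + 256 * δ' ^ 2 * (2 * ((L + q + w : ℕ) : ℝ) + 1) := by
  set d' := d.up q with hd'
  have hL1 : 1 ≤ L := by
    by_contra hL
    have : L = 0 := by omega
    have := h.L_le; rw [‹L = 0›] at this; simp at this; linarith [h.δ_le]
  have hbq : 2 ≤ beta ^ q := by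
    calc (2 : ℝ) ≤ beta ^ 2 := by nlinarith [beta_lb]
      _ ≤ beta ^ q := pow_le_pow_right₀ one_lt_beta.le (by omega)
  have hint : d'.Integral := Data.up_integral h.integral q
  have ht' : |d'.t| ≤ 1 := by
    simp only [hd', Data.up, abs_mul]
    refine mul_le_one₀ h.t_le (abs_nonneg _) ?_
    have : (beta ^ q)⁻¹ ≤ 1 := inv_le_one_of_one_le₀ (by linarith)
    have : 0 ≤ (beta ^ q)⁻¹ := by positivity
    rw [abs_le]; constructor <;> linarith
  have hc' : ‖d'.c‖ ≤ δ' := by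
    simp only [hd', Data.up, norm_mul]
    calc ‖d.c‖ * ‖zeta ^ q - 1‖ ≤ δ * ‖zeta ^ q - 1‖ := by gcongr; exact h.c_le
      _ ≤ δ' := by linarith
  have hs1 : d'.s ≤ δ * beta ^ (L + q) := by
    simp only [hd', Data.up, pow_add]
    have := h.s_le; have := h.s_ge
    nlinarith
  have hu' : ∀ k, d'.u k = d.u (k + q) - d.u k := d.up_u q
  have hδ := h.δ_pos
  have hδ1 := h.δ_le
  -- the five zones
  have z1 : ∀ k : ℤ, |d'.u k| ≤ δ * beta ^ (k + ((L : ℤ) + q)) := by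
    intro k
    have hp : 0 < beta ^ k := zpow_pos beta_pos k
    have hs0 : 0 ≤ d'.s := by simp only [hd', Data.up]; nlinarith [h.s_ge]
    rw [Data.u, abs_of_nonneg (mul_nonneg hs0 hp.le), zpow_add₀ beta_ne_zero,
      show ((L : ℤ) + q) = ((L + q : ℕ) : ℤ) by push_cast; ring, zpow_natCast]
    nlinarith [mul_le_mul_of_nonneg_right hs1 hp.le]
  have z5 : ∀ k : ℤ, |d'.z k| ≤ δ * beta ^ ((L : ℤ) - k) + 2 * δ' := fun k ↦
    (z_bound d' ht' k).trans (add_le_add (h.beta_neg_le k) (by linarith))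
  have g2 : ∀ k : ℤ, k + q ∈ Icc (-(L : ℤ)) L →
      m' ≤ g (d'.u k) ∧ f (d'.u k) ≤ f (d.u (k + q)) + 24 * δ / m := by
    intro k hk
    have hk' := mem_Icc.1 hk
    have hy : |-d.u k| ≤ 3 * δ := by
      rw [abs_neg]; exact (h.u_left' (by omega)).trans (by linarith)
    rw [hu', sub_eq_add_neg]
    refine ⟨le_trans ?_ (g_add_ge hy), (f_add_le hy hm (h.core _ hk) (by linarith)).trans ?_⟩
    · linarith [h.core _ hk]
    · ring_nf; rfl
  have g4 : ∀ k : ℤ, k ∈ Icc (-(L : ℤ)) L →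
      m' ≤ g (d'.u k) ∧ f (d'.u k) ≤ f (d.u k) + 24 * δ / m := by
    intro k hk
    have hk' := mem_Icc.1 hk
    obtain ⟨n, hn⟩ := d.u_eq_z h.integral (k + q)
    have hy : |d.z (k + q)| ≤ 3 * δ := h.z_right (by omega)
    have e : d'.u k = -d.u k + d.z (k + q) + n := by rw [hu', hn]; ring
    have hg : m ≤ g (-d.u k) := by rw [g_neg]; exact h.core k hk
    rw [e, g_add_int, f_add_int]
    refine ⟨le_trans ?_ (g_add_ge hy), (f_add_le hy hm hg (by linarith)).trans ?_⟩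
    · linarith
    · rw [f_neg]; ring_nf; rfl
  have small : ∀ x : ℝ, ∀ e : ℝ, |x| ≤ e → e ≤ 4 * δ → m' ≤ g x := by
    intro x e hx he
    have he0 : 0 ≤ e := (abs_nonneg x).trans hx
    have := g_small hx (by linarith)
    nlinarith
  have g3 : ∀ k : ℤ, -(q : ℤ) + L ≤ k → k ≤ -(L : ℤ) →
      m' ≤ g (d'.u k) ∧ f (d'.u k) ≤ 256 * δ ^ 2 := by
    intro k hk1 hk2
    obtain ⟨n, hn⟩ := d.u_eq_z h.integral (k + q)
    have e : d'.u k = (d.z (k + q) - d.u k) + n := by rw [hu', hn]; ring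
    have hy : |d.z (k + q) - d.u k| ≤ 4 * δ := by
      have h1 := h.z_right (k := k + q) (by omega)
      have h2 := h.u_left' hk2
      exact (abs_sub _ _).trans (by linarith)
    rw [e, g_add_int, f_add_int]
    exact ⟨small _ _ hy le_rfl, (f_small hy (by linarith)).trans (by ring_nf; rfl)⟩
  have g1 : ∀ k : ℤ, k ≤ -((L : ℤ) + q) →
      m' ≤ g (d'.u k) ∧ f (d'.u k) ≤ 16 * δ ^ 2 * (beta ^ (k + ((L : ℤ) + q))) ^ 2 := by
    intro k hk
    have hb : beta ^ (k + ((L : ℤ) + q)) ≤ 1 :=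
      zpow_le_one_of_nonpos₀ one_lt_beta.le (by omega)
    have he : δ * beta ^ (k + ((L : ℤ) + q)) ≤ δ := by nlinarith
    refine ⟨small _ _ (z1 k) (by linarith), (f_small (z1 k) (by linarith)).trans ?_⟩
    ring_nf; rfl
  have g5 : ∀ k : ℤ, (L : ℤ) ≤ k →
      m' ≤ g (d'.u k) ∧
        f (d'.u k) ≤ 32 * δ ^ 2 * (beta ^ ((L : ℤ) - k)) ^ 2 + 128 * δ' ^ 2 := by
    intro k hk
    have hb : beta ^ ((L : ℤ) - k) ≤ 1 := zpow_le_one_of_nonpos₀ one_lt_beta.le (by omega)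
    have he : δ * beta ^ ((L : ℤ) - k) + 2 * δ' ≤ 3 * δ := by nlinarith
    rw [d'.g_u_eq hint, d'.f_u_eq hint]
    refine ⟨small _ _ (z5 k) (by linarith), (f_small (z5 k) (by linarith)).trans ?_⟩
    nlinarith [sq_nonneg (δ * beta ^ ((L : ℤ) - k) - 2 * δ')]
  constructor
  · refine ⟨hint, ?_, ?_, ht', ?_, hc', hδ'0, hδ'le.trans hδ1, ?_⟩
    · simp only [hd', Data.up]; nlinarith [h.s_ge]
    · refine hs1.trans ?_
      rw [pow_add _ (L + q) w]
      nlinarith [mul_le_mul_of_nonneg_right hw (show 0 ≤ beta ^ (L + q) from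
        pow_nonneg beta_pos.le _)]
    · refine h.L_le.trans ?_
      have h1 : δ * beta ^ L ≤ (δ' * beta ^ w) * beta ^ L :=
        mul_le_mul_of_nonneg_right hw (pow_nonneg beta_pos.le _)
      refine h1.trans ?_
      rw [mul_assoc, ← pow_add]
      exact mul_le_mul_of_nonneg_left (pow_le_pow_right₀ one_lt_beta.le (by omega)) hδ'0.le
    · intro k _
      rcases le_or_gt k (-((L : ℤ) + q)) with c1 | c1
      · exact (g1 k c1).1
      rcases le_or_gt k (-(q : ℤ) + L) with c2 | c2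
      · exact (g2 k (mem_Icc.2 ⟨by omega, by omega⟩)).1
      rcases le_or_gt k (-(L : ℤ)) with c3 | c3
      · exact (g3 k c2.le c3).1
      rcases le_or_gt k (L : ℤ) with c4 | c4
      · exact (g4 k (mem_Icc.2 ⟨c3.le, c4⟩)).1
      · exact (g5 k c4.le).1
  · set I := Icc (-((L + q + w : ℕ) : ℤ)) ((L + q + w : ℕ) : ℤ) with hI
    let E2 : ℤ → ℝ := fun k ↦
      if k + q ∈ Icc (-(L : ℤ)) L then f (d.u (k + q)) + 24 * δ / m else 0
    let E4 : ℤ → ℝ := fun k ↦
      if k ∈ Icc (-(L : ℤ)) L then f (d.u k) + 24 * δ / m else 0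
    let E3 : ℤ → ℝ := fun k ↦
      if k ∈ Icc (-(q : ℤ) + L) (-(L : ℤ)) then 256 * δ ^ 2 else 0
    let E1 : ℤ → ℝ := fun k ↦
      if k ≤ -((L : ℤ) + q) then 16 * δ ^ 2 * (beta ^ (k + ((L : ℤ) + q))) ^ 2 else 0
    let E5 : ℤ → ℝ := fun k ↦
      if (L : ℤ) ≤ k then 32 * δ ^ 2 * (beta ^ ((L : ℤ) - k)) ^ 2 + 128 * δ' ^ 2 else 0
    have p2 : ∀ k, 0 ≤ E2 k := fun k ↦ by
      simp only [E2]; split <;> [exact add_nonneg (f_nonneg _) (by positivity); rfl]
    have p4 : ∀ k, 0 ≤ E4 k := fun k ↦ by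
      simp only [E4]; split <;> [exact add_nonneg (f_nonneg _) (by positivity); rfl]
    have p3 : ∀ k, 0 ≤ E3 k := fun k ↦ by simp only [E3]; split <;> positivity
    have p1 : ∀ k, 0 ≤ E1 k := fun k ↦ by simp only [E1]; split <;> positivity
    have p5 : ∀ k, 0 ≤ E5 k := fun k ↦ by simp only [E5]; split <;> positivity
    have hpt : ∀ k, f (d'.u k) ≤ E1 k + E2 k + E3 k + E4 k + E5 k := by
      intro k
      have := p1 k; have := p2 k; have := p3 k; have := p4 k; have := p5 k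
      rcases le_or_gt k (-((L : ℤ) + q)) with c1 | c1
      · have := (g1 k c1).2
        have : E1 k = 16 * δ ^ 2 * (beta ^ (k + ((L : ℤ) + q))) ^ 2 := if_pos c1
        linarith
      rcases le_or_gt k (-(q : ℤ) + L) with c2 | c2
      · have hk : k + q ∈ Icc (-(L : ℤ)) L := mem_Icc.2 ⟨by omega, by omega⟩
        have := (g2 k hk).2
        have : E2 k = f (d.u (k + q)) + 24 * δ / m := if_pos hk
        linarith
      rcases le_or_gt k (-(L : ℤ)) with c3 | c3
      · have := (g3 k c2.le c3).2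
        have : E3 k = 256 * δ ^ 2 := if_pos (mem_Icc.2 ⟨c2.le, c3⟩)
        linarith
      rcases le_or_gt k (L : ℤ) with c4 | c4
      · have hk : k ∈ Icc (-(L : ℤ)) L := mem_Icc.2 ⟨c3.le, c4⟩
        have := (g4 k hk).2
        have : E4 k = f (d.u k) + 24 * δ / m := if_pos hk
        linarith
      · have := (g5 k c4.le).2
        have : E5 k = 32 * δ ^ 2 * (beta ^ ((L : ℤ) - k)) ^ 2 + 128 * δ' ^ 2 := if_pos c4.le
        linarith
    have hcard : ((Icc (-(L : ℤ)) L).card : ℝ) = 2 * (L : ℝ) + 1 := by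
      rw [Int.card_Icc, show (L : ℤ) + 1 - -(L : ℤ) = ((2 * L + 1 : ℕ) : ℤ) by push_cast; ring,
        Int.toNat_natCast]
      push_cast; ring
    have s4 : ∑ k ∈ I, E4 k ≤ d.cost L + (2 * (L : ℝ) + 1) * (24 * δ / m) := by
      simp only [E4]
      rw [← sum_filter]
      calc _ ≤ ∑ k ∈ Icc (-(L : ℤ)) L, (f (d.u k) + 24 * δ / m) :=
            sum_le_sum_of_subset_of_nonneg (fun k hk ↦ (mem_filter.1 hk).2)
              fun k _ _ ↦ add_nonneg (f_nonneg _) (by positivity)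
        _ = _ := by rw [sum_add_distrib, sum_const, nsmul_eq_mul, hcard]; rfl
    have s2 : ∑ k ∈ I, E2 k ≤ d.cost L + (2 * (L : ℝ) + 1) * (24 * δ / m) := by
      simp only [E2]
      rw [← sum_filter]
      calc _ = ∑ j ∈ (I.filter fun k : ℤ ↦ k + (q : ℤ) ∈ Icc (-(L : ℤ)) L).image (· + (q : ℤ)),
              (f (d.u j) + 24 * δ / m) := by
            rw [sum_image]
            exact fun x _ y _ hxy ↦ by simpa using hxy
        _ ≤ ∑ k ∈ Icc (-(L : ℤ)) L, (f (d.u k) + 24 * δ / m) := by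
            refine sum_le_sum_of_subset_of_nonneg ?_
              fun k _ _ ↦ add_nonneg (f_nonneg _) (by positivity)
            intro j hj
            obtain ⟨k, hk, rfl⟩ := mem_image.1 hj
            exact (mem_filter.1 hk).2
        _ = _ := by rw [sum_add_distrib, sum_const, nsmul_eq_mul, hcard]; rfl
    have s3 : ∑ k ∈ I, E3 k ≤ 256 * δ ^ 2 * q := by
      simp only [E3]
      rw [← sum_filter]
      calc _ ≤ ∑ k ∈ Icc (-(q : ℤ) + L) (-(L : ℤ)), 256 * δ ^ 2 :=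
            sum_le_sum_of_subset_of_nonneg (fun k hk ↦ (mem_filter.1 hk).2)
              fun k _ _ ↦ by positivity
        _ ≤ _ := by
            rw [sum_const, nsmul_eq_mul, mul_comm]
            refine mul_le_mul_of_nonneg_left ?_ (by positivity)
            rw [Int.card_Icc]
            exact_mod_cast (show (-(L : ℤ) + 1 - (-(q : ℤ) + L)).toNat ≤ q by omega)
    have s1 : ∑ k ∈ I, E1 k ≤ 32 * δ ^ 2 := by
      simp only [E1]
      rw [← sum_filter, ← mul_sum]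
      have := sum_geom_le (I.filter fun k ↦ k ≤ -((L : ℤ) + q)) (-((L : ℤ) + q))
        fun k hk ↦ (mem_filter.1 hk).2
      simp only [sub_neg_eq_add] at this
      nlinarith [sq_nonneg δ]
    have s5 : ∑ k ∈ I, E5 k ≤
        64 * δ ^ 2 + 128 * δ' ^ 2 * (2 * ((L + q + w : ℕ) : ℝ) + 1) := by
      simp only [E5]
      rw [← sum_filter, sum_add_distrib, ← mul_sum, sum_const, nsmul_eq_mul]
      refine add_le_add ?_ ?_
      · have := sum_geom_le ((I.filter fun k ↦ (L : ℤ) ≤ k).image fun k ↦ -k) (-(L : ℤ))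
          (fun k hk ↦ by
            obtain ⟨j, hj, rfl⟩ := mem_image.1 hk
            have := (mem_filter.1 hj).2; omega)
        rw [sum_image (fun x _ y _ hxy ↦ by simpa using hxy)] at this
        have e : ∀ k : ℤ, -k - -(L : ℤ) = (L : ℤ) - k := fun k ↦ by ring
        simp only [e] at this
        nlinarith [sq_nonneg δ]
      · rw [mul_comm]
        refine mul_le_mul_of_nonneg_left ?_ (by positivity)
        have h1 := card_filter_le I (fun k ↦ (L : ℤ) ≤ k)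
        have h2 : (I.card : ℝ) = 2 * ((L + q + w : ℕ) : ℝ) + 1 := by
          rw [hI, Int.card_Icc,
            show ((L + q + w : ℕ) : ℤ) + 1 - -((L + q + w : ℕ) : ℤ) =
              ((2 * (L + q + w) + 1 : ℕ) : ℤ) by push_cast; ring,
            Int.toNat_natCast]
          push_cast; ring
        rw [← h2]; exact_mod_cast h1
    have hsum : d'.cost (L + q + w) ≤
        ∑ k ∈ I, (E1 k + E2 k + E3 k + E4 k + E5 k) := sum_le_sum fun k _ ↦ hpt k
    simp only [sum_add_distrib] at hsum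
    have e : (2 * (L : ℝ) + 1) * (24 * δ / m) = 24 * ((2 * (L : ℝ) + 1) * δ / m) := by ring
    nlinarith [sq_nonneg δ, sq_nonneg δ']

end Vale.Agent.P105
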