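import Vale.Agent.P105.Phase

/-!
Good approximations `zeta^q ≈ 1`, growth facts and the seed elements.
-/

namespace Vale.Agent.P105

open Finset Filter

lemma exp_dom {a b : ℝ} (h : a < b) (C : ℝ) :
    ∀ᶠ x in atTop, C * Real.exp (a * x) ≤ Real.exp (b * x) := by
  have h1 : Tendsto (fun x : ℝ ↦ (b - a) * x) atTop atTop :=
    tendsto_id.const_mul_atTop (by linarith)
  filter_upwards [(Real.tendsto_exp_atTop.comp h1).eventually_ge_atTop C] with x hx
  calc C * Real.exp (a * x) ≤ Real.exp ((b - a) * x) * Real.exp (a * x) :=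
        mul_le_mul_of_nonneg_right hx (Real.exp_pos _).le
    _ = Real.exp (b * x) := by rw [← Real.exp_add]; ring_nf

lemma exp_small {a : ℝ} (h : a < 0) {c : ℝ} (hc : 0 < c) :
    ∀ᶠ x in atTop, Real.exp (a * x) ≤ c := by
  have h1 : Tendsto (fun x : ℝ ↦ a * x) atTop atBot := tendsto_id.const_mul_atTop_of_neg h
  filter_upwards [(Real.tendsto_exp_atBot.comp h1).eventually (eventually_le_nhds hc)] with x hx
  exact hx

lemma lin_dom {b : ℝ} (hb : 0 < b) {C D : ℝ} (hC : 0 ≤ C) (hD : 0 ≤ D) :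
    ∀ᶠ x in atTop, C * x + D ≤ Real.exp (b * x) := by
  filter_upwards [eventually_ge_atTop (0 : ℝ),
    exp_dom (show b / 2 < b by linarith) (C * (2 / b) + D)] with x hx h
  refine le_trans ?_ h
  have h1 := Real.add_one_le_exp (b / 2 * x)
  have h2 : x ≤ 2 / b * Real.exp (b / 2 * x) := by
    rw [div_mul_eq_mul_div, le_div_iff₀ hb]; linarith
  have h3 : 1 ≤ Real.exp (b / 2 * x) := Real.one_le_exp (by positivity)
  nlinarith [mul_le_mul_of_nonneg_left h2 hC, mul_le_mul_of_nonneg_left h3 hD]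

lemma ceil_le_two_exp {a x : ℝ} (ha : 0 ≤ a) (hx : 0 ≤ x) :
    (⌈Real.exp (a * x)⌉₊ : ℝ) ≤ 2 * Real.exp (a * x) := by
  have := Nat.ceil_lt_add_one (Real.exp_pos (a * x)).le
  have := Real.one_le_exp (mul_nonneg ha hx)
  linarith

lemma exp_half_le_beta : Real.exp (1 / 2) ≤ beta := by
  have h : Real.exp (1 / 2) ^ 2 = Real.exp 1 := by
    rw [sq, ← Real.exp_add]; norm_num
  have := Real.exp_one_lt_d9
  nlinarith [beta_lb, Real.exp_pos (1 / 2)]

lemma exp_le_beta_pow (w : ℕ) : Real.exp (w / 2) ≤ beta ^ w := by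
  calc Real.exp (w / 2) = Real.exp (1 / 2) ^ w := by rw [← Real.exp_nat_mul]; ring_nf
    _ ≤ beta ^ w := pow_le_pow_left₀ (Real.exp_pos _).le exp_half_le_beta w

/-- Dirichlet approximation for powers of `z` on the unit circle. -/
lemma dirichlet_circle {z : ℂ} (hz : ‖z‖ = 1) {X : ℕ} (hX : 0 < X) :
    ∃ q, 0 < q ∧ q ≤ X ∧ ‖z ^ q - 1‖ ≤ 7 / X := by
  set θ := Complex.arg z / (2 * Real.pi) with hθ
  obtain ⟨q, hq0, hqX, hq⟩ := Real.exists_nat_abs_mul_sub_round_le θ hX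
  refine ⟨q, hq0, hqX, ?_⟩
  set r : ℤ := round ((q : ℝ) * θ)
  have hz' : z = Complex.exp (Complex.arg z * Complex.I) := by
    have := Complex.norm_mul_exp_arg_mul_I z
    rw [hz] at this; simpa using this.symm
  have e : z ^ q = Complex.exp (Complex.I * ((2 * Real.pi * ((q : ℝ) * θ - r) : ℝ) : ℂ)) := by
    conv_lhs => rw [hz', ← Complex.exp_nat_mul]
    rw [Complex.exp_eq_exp_iff_exists_int]
    refine ⟨r, ?_⟩
    have : (2 * Real.pi : ℝ) * θ = Complex.arg z := by rw [hθ]; field_simp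
    rw [← this]; push_cast; ring
  rw [e]
  refine Real.norm_exp_I_mul_ofReal_sub_one_le.trans ?_
  rw [Real.norm_eq_abs, abs_mul, abs_of_pos Real.two_pi_pos]
  calc 2 * Real.pi * |(q : ℝ) * θ - r| ≤ 7 * (1 / ((X : ℝ) + 1)) :=
        mul_le_mul (by linarith [Real.pi_lt_d2]) hq (abs_nonneg _) (by norm_num)
    _ ≤ 7 / X := by
        have : (0 : ℝ) < X := by exact_mod_cast hX
        rw [mul_one_div]; gcongr; linarith

lemma dirichlet_exp {z : ℂ} (hz : ‖z‖ = 1) {a x : ℝ} (ha : 0 ≤ a) (hx : 0 ≤ x) :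
    ∃ q : ℕ, 0 < q ∧ (q : ℝ) ≤ 2 * Real.exp (a * x) ∧ ‖z ^ q - 1‖ ≤ 7 * Real.exp (-a * x) := by
  obtain ⟨q, h1, h2, h3⟩ := dirichlet_circle hz (X := ⌈Real.exp (a * x)⌉₊)
    (Nat.ceil_pos.2 (Real.exp_pos _))
  refine ⟨q, h1, ?_, h3.trans ?_⟩
  · exact le_trans (by exact_mod_cast h2) (ceil_le_two_exp ha hx)
  · rw [neg_mul, Real.exp_neg, ← div_eq_mul_inv]
    exact div_le_div_of_nonneg_left (by norm_num) (Real.exp_pos _) (Nat.le_ceil _)

/-- Small distances to `1` force large exponents. -/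
lemma exists_eta (Q : ℕ) : ∃ η > 0, ∀ q : ℕ, 0 < q → ‖zeta ^ q - 1‖ < η → Q ≤ q := by
  induction Q with
  | zero => exact ⟨1, one_pos, fun q _ _ ↦ Nat.zero_le q⟩
  | succ Q ih =>
    obtain ⟨η, hη, h⟩ := ih
    by_cases hQ : Q = 0
    · exact ⟨η, hη, fun q hq _ ↦ by omega⟩
    · have hpos : 0 < ‖zeta ^ Q - 1‖ := by
        rw [norm_pos_iff, sub_ne_zero]; exact zeta_pow_ne_one hQ
      refine ⟨min η ‖zeta ^ Q - 1‖, lt_min hη hpos, fun q hq hlt ↦ ?_⟩
      rcases (h q hq (hlt.trans_le (min_le_left _ _))).lt_or_eq with h1 | h1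
      · omega
      · exfalso; subst h1; exact absurd hlt (not_lt.2 (min_le_right _ _))

lemma eventually_large (Q : ℕ) {a : ℝ} (ha : 0 < a) :
    ∀ᶠ x in atTop, ∀ q : ℕ, 0 < q → ‖zeta ^ q - 1‖ ≤ 7 * Real.exp (-a * x) → Q ≤ q := by
  obtain ⟨η, hη, h⟩ := exists_eta Q
  filter_upwards [exp_small (show -a < 0 by linarith) (show 0 < η / 8 by linarith)] with x hx
  intro q hq hle
  exact h q hq (by linarith)

lemma g_pos_of_not_half {x : ℝ} (h : ∀ r : ℚ, x ≠ r) : 0 < g x := by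
  refine lt_of_le_of_ne (g_nonneg x) fun h0 ↦ ?_
  obtain ⟨i, hi⟩ := Real.cos_eq_zero_iff.1 (abs_eq_zero.1 h0.symm)
  refine h ((2 * i + 1 : ℤ) / 2 : ℚ) ?_
  have : x = (2 * (i : ℝ) + 1) / 2 := by
    have hp := Real.pi_pos
    field_simp at hi ⊢
    nlinarith [hi]
  rw [this]; push_cast; ring

/-- `β^n - β^k` is irrational for `n ≠ k`. -/
lemma pow_sub_irrat {n k : ℤ} (h : n ≠ k) (r : ℚ) : beta ^ n - beta ^ k ≠ r := by
  intro he
  obtain ⟨p, q, hp, -⟩ := trace_pair n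
  obtain ⟨p', q', hp', -⟩ := trace_pair k
  refine h (diff_eq_imp (a := 2 * r - p + p') (b := -q + q') ?_)
  push_cast
  linear_combination 2 * he - hp + hp'

lemma mul_zeta_diff (c : ℂ) (j : ℤ) (q : ℕ) :
    |(c * zeta ^ (j + q)).re - (c * zeta ^ j).re| ≤ ‖c‖ * ‖zeta ^ q - 1‖ := by
  rw [← Complex.sub_re]
  refine (Complex.abs_re_le_norm _).trans (le_of_eq ?_)
  rw [zpow_add₀ zeta_ne_zero, zpow_natCast,
    show c * (zeta ^ j * zeta ^ q) - c * zeta ^ j = c * (zeta ^ q - 1) * zeta ^ j by ring,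
    norm_mul, norm_mul, zeta_zpow_norm, mul_one]

lemma norm_pow_two_sub (q : ℕ) : ‖zeta ^ (2 * q) - 1‖ ≤ 2 * ‖zeta ^ q - 1‖ := by
  rw [show zeta ^ (2 * q) - 1 = (zeta ^ q - 1) * (zeta ^ q + 1) by rw [mul_comm 2 q, pow_mul]; ring,
    norm_mul, mul_comm (2 : ℝ)]
  refine mul_le_mul_of_nonneg_left ((norm_add_le _ _).trans ?_) (norm_nonneg _)
  rw [norm_pow, zeta_norm]; norm_num

lemma up_up_u (d : Data) (q : ℕ) (k : ℤ) :
    ((d.up q).up q).u k = d.u (k + 2 * q) - 2 * d.u (k + q) + d.u k := by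
  rw [Data.up_u, Data.up_u, Data.up_u, show k + (q : ℤ) + q = k + 2 * q by ring]; ring

/-- The base of the seeds: `β^q0 - 1`. -/
structure SeedBase (d0 : Data) (q0 : ℕ) : Prop where
  pos : 0 < q0
  integral : d0.Integral
  s_eq : d0.s = beta ^ q0 - 1
  t_eq : d0.t = beta ^ (-(q0 : ℤ)) - 1
  c_le : ‖d0.c‖ ≤ 1 / 100

lemma exists_seedBase : ∃ d0 q0, SeedBase d0 q0 := by
  obtain ⟨q0, hq0, -, hc0⟩ := dirichlet_circle zeta_norm (X := 700) (by norm_num)
  refine ⟨Data.base.up q0, q0, hq0, Data.up_integral Data.base_integral q0, ?_, ?_, ?_⟩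
  · simp [Data.up, Data.base]
  · simp [Data.up, Data.base, zpow_neg]
  · simp only [Data.up, Data.base, one_mul]
    norm_num at hc0 ⊢; linarith

variable {d0 : Data} {q0 : ℕ}

lemma SeedBase.t_le (h : SeedBase d0 q0) : |d0.t| ≤ 1 := by
  rw [h.t_eq]
  have h1 : beta ^ (-(q0 : ℤ)) ≤ 1 := zpow_le_one_of_nonpos₀ one_lt_beta.le (by omega)
  have h2 : 0 < beta ^ (-(q0 : ℤ)) := zpow_pos beta_pos _
  rw [abs_le]; constructor <;> linarith

lemma SeedBase.u_le (h : SeedBase d0 q0) (k : ℤ) : |d0.u k| ≤ beta ^ (k + q0) := by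
  have hp : 0 < beta ^ k := zpow_pos beta_pos k
  have h1 : 1 ≤ beta ^ q0 := one_le_pow₀ one_lt_beta.le
  rw [Data.u, h.s_eq, abs_of_nonneg (mul_nonneg (by linarith) hp.le),
    zpow_add₀ beta_ne_zero, zpow_natCast]
  nlinarith

lemma beta_neg_ten : beta ^ (-(10 : ℤ)) ≤ 1 / 100 := by
  rw [zpow_neg, one_div]
  refine inv_anti₀ (by norm_num) ?_
  calc (100 : ℝ) ≤ (187 / 100) ^ 10 := by norm_num
    _ ≤ beta ^ 10 := pow_le_pow_left₀ (by norm_num) beta_lb 10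
    _ = beta ^ (10 : ℤ) := by norm_cast

lemma SeedBase.small (h : SeedBase d0 q0) {k : ℤ}
    (hk : k ∉ Icc (-((q0 + 10 : ℕ) : ℤ)) ((q0 + 10 : ℕ) : ℤ)) :
    ∃ r : ℝ, ∃ i : ℤ, d0.u k = r + i ∧ |r| ≤ 3 / 100 := by
  rw [mem_Icc, not_and_or, not_le, not_le] at hk
  rcases hk with hk | hk
  · refine ⟨d0.u k, 0, by simp, (h.u_le k).trans ?_⟩
    have := (zpow_le_zpow_right₀ one_lt_beta.le (show k + q0 ≤ -(10 : ℤ) by omega)).trans
      beta_neg_ten
    linarith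
  · obtain ⟨i, hi⟩ := d0.u_eq_z h.integral k
    refine ⟨d0.z k, i, hi, (z_bound d0 h.t_le k).trans ?_⟩
    have := (zpow_le_zpow_right₀ one_lt_beta.le (show -k ≤ -(10 : ℤ) by omega)).trans beta_neg_ten
    linarith [h.c_le]

/-- The limit profiles never vanish. -/
lemma SeedBase.profile_pos (h : SeedBase d0 q0) (j : ℤ) :
    0 < g (d0.u j) ∧ 0 < g (-2 * d0.u j - 2 * (d0.c * zeta ^ j).re) ∧
      0 < g (d0.u j + 2 * (d0.c * zeta ^ j).re) := by
  have hne : (j + q0 : ℤ) ≠ j := by have := h.pos; omega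
  have hue : d0.u j = beta ^ (j + q0) - beta ^ j := by
    rw [Data.u, h.s_eq, zpow_add₀ beta_ne_zero, zpow_natCast]; ring
  have hte : d0.t * beta ^ (-j) = beta ^ (-(j + q0)) - beta ^ (-j) := by
    rw [h.t_eq, neg_add, zpow_add₀ beta_ne_zero]; ring
  obtain ⟨i, hi⟩ := h.integral j
  have hi' : d0.u j + d0.t * beta ^ (-j) + 2 * (d0.c * zeta ^ j).re = i := hi
  refine ⟨?_, ?_, ?_⟩ <;> refine g_pos_of_not_half fun r hr ↦ ?_
  · exact pow_sub_irrat hne r (by linarith)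
  · refine hne (diff_eq_imp (a := -(r + i)) (b := 0) ?_)
    push_cast; linarith
  · refine pow_sub_irrat (n := -(j + q0)) (k := -j) (by have := h.pos; omega) (i - r) ?_
    push_cast; linarith

lemma SeedBase.profile_lb (h : SeedBase d0 q0) : ∃ ms > 0, ms ≤ 1 / 4 ∧
    ∀ j ∈ Icc (-((q0 + 10 : ℕ) : ℤ)) ((q0 + 10 : ℕ) : ℤ), 2 * ms ≤ g (d0.u j) ∧
      2 * ms ≤ g (-2 * d0.u j - 2 * (d0.c * zeta ^ j).re) ∧
      2 * ms ≤ g (d0.u j + 2 * (d0.c * zeta ^ j).re) := by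
  let P : ℤ → ℝ := fun j ↦ min (g (d0.u j))
    (min (g (-2 * d0.u j - 2 * (d0.c * zeta ^ j).re)) (g (d0.u j + 2 * (d0.c * zeta ^ j).re)))
  set I := Icc (-((q0 + 10 : ℕ) : ℤ)) ((q0 + 10 : ℕ) : ℤ)
  have hne : I.Nonempty := nonempty_Icc.2 (by omega)
  have hpos : 0 < min (I.inf' hne P) (1 / 2) := by
    refine lt_min ((lt_inf'_iff _).2 fun j _ ↦ ?_) (by norm_num)
    obtain ⟨a, b, c⟩ := h.profile_pos j
    exact lt_min a (lt_min b c)
  refine ⟨min (I.inf' hne P) (1 / 2) / 2, by linarith, ?_, fun j hj ↦ ?_⟩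
  · have := min_le_right (I.inf' hne P) (1 / 2); linarith
  · have h1 : 2 * (min (I.inf' hne P) (1 / 2) / 2) ≤ P j := by
      have := min_le_left (I.inf' hne P) (1 / 2)
      have := inf'_le P hj
      linarith
    exact ⟨h1.trans (min_le_left _ _), h1.trans ((min_le_right _ _).trans (min_le_left _ _)),
      h1.trans ((min_le_right _ _).trans (min_le_right _ _))⟩

/-- Far from the core the phases are within `ms / 100` of their limits. -/
lemma SeedBase.far (h : SeedBase d0 q0) {ms : ℝ} (hms : 0 < ms) {N : ℕ}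
    (hN : beta ^ q0 * (100 / ms) ≤ beta ^ N) :
    (∀ n : ℤ, n ≤ -(N : ℤ) → |d0.u n| ≤ ms / 100) ∧
    (∀ (j : ℤ) (p : ℕ) (e : ℝ), (N : ℤ) ≤ j + p → ‖zeta ^ p - 1‖ ≤ e →
      |d0.z (j + p) + 2 * (d0.c * zeta ^ j).re| ≤ ms / 100 + e / 50) := by
  have hb : beta ^ q0 / beta ^ N ≤ ms / 100 := by
    rw [div_le_iff₀ (pow_pos beta_pos _)]
    calc beta ^ q0 = ms / 100 * (beta ^ q0 * (100 / ms)) := by field_simp
      _ ≤ ms / 100 * beta ^ N := mul_le_mul_of_nonneg_left hN (by positivity)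
  refine ⟨fun n hn ↦ (h.u_le n).trans (le_trans ?_ hb), fun j p e hjp hpe ↦ ?_⟩
  · refine (zpow_le_zpow_right₀ one_lt_beta.le (show n + q0 ≤ (q0 : ℤ) - N by omega)).trans ?_
    rw [zpow_sub₀ beta_ne_zero, zpow_natCast, zpow_natCast]
  have h1 := mul_zeta_diff d0.c j p
  have h2 : |d0.t * beta ^ (-(j + p))| ≤ ms / 100 := by
    rw [abs_mul, abs_of_pos (zpow_pos beta_pos _)]
    refine (mul_le_of_le_one_left (zpow_pos beta_pos _).le h.t_le).trans (le_trans ?_ hb)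
    refine (zpow_le_zpow_right₀ one_lt_beta.le (show -(j + p) ≤ -(N : ℤ) by omega)).trans ?_
    rw [zpow_neg, zpow_natCast, div_eq_mul_inv]
    exact le_mul_of_one_le_left (inv_nonneg.2 (pow_nonneg beta_pos.le _))
      (one_le_pow₀ one_lt_beta.le)
  have h3 : ‖d0.c‖ * ‖zeta ^ p - 1‖ ≤ 1 / 100 * e :=
    mul_le_mul h.c_le hpe (norm_nonneg _) (by norm_num)
  rw [abs_le] at h1 h2 ⊢
  unfold Data.z
  constructor <;> linarith

/-- The uniform bound on the seed `(β^q0 - 1)(β^q - 1)^2`. -/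
lemma SeedBase.core_bound (h : SeedBase d0 q0) {ms : ℝ} (hms : 0 < ms) (hms4 : ms ≤ 1 / 4)
    (hP : ∀ j ∈ Icc (-((q0 + 10 : ℕ) : ℤ)) ((q0 + 10 : ℕ) : ℤ), 2 * ms ≤ g (d0.u j) ∧
      2 * ms ≤ g (-2 * d0.u j - 2 * (d0.c * zeta ^ j).re) ∧
      2 * ms ≤ g (d0.u j + 2 * (d0.c * zeta ^ j).re))
    {N q : ℕ} (hN : beta ^ q0 * (100 / ms) ≤ beta ^ N) (hq : N + 3 * (q0 + 10) + 2 ≤ q)
    (he : ‖zeta ^ q - 1‖ ≤ ms / 100) (k : ℤ) :
    ms ≤ g (((d0.up q).up q).u k) := by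
  obtain ⟨hR, hzl⟩ := h.far hms hN
  rw [up_up_u]
  by_cases c2 : k + 2 * q ∈ Icc (-((q0 + 10 : ℕ) : ℤ)) ((q0 + 10 : ℕ) : ℤ)
  · have hj := mem_Icc.1 c2
    have h1 := hR (k + q) (by omega)
    have h2 := hR k (by omega)
    have hy : |(-2 * d0.u (k + q) + d0.u k)| ≤ 3 * (ms / 100) := by
      rw [abs_le] at h1 h2 ⊢; constructor <;> linarith
    have := g_add_ge (x := d0.u (k + 2 * q)) hy
    rw [show d0.u (k + 2 * q) - 2 * d0.u (k + q) + d0.u k =
      d0.u (k + 2 * q) + (-2 * d0.u (k + q) + d0.u k) by ring]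
    linarith [(hP _ c2).1]
  by_cases c1 : k + q ∈ Icc (-((q0 + 10 : ℕ) : ℤ)) ((q0 + 10 : ℕ) : ℤ)
  · have hj := mem_Icc.1 c1
    obtain ⟨i, hi⟩ := d0.u_eq_z h.integral (k + 2 * q)
    have h1 := hR k (by omega)
    have h2 := hzl (k + q) q _ (by omega) he
    rw [show k + (q : ℤ) + q = k + 2 * q by ring] at h2
    have hy : |(d0.z (k + 2 * q) + 2 * (d0.c * zeta ^ (k + (q : ℤ))).re + d0.u k)| ≤
        4 * (ms / 100) := by
      rw [abs_le] at h1 h2 ⊢; constructor <;> linarith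
    have := g_add_ge (x := -2 * d0.u (k + q) - 2 * (d0.c * zeta ^ (k + (q : ℤ))).re) hy
    rw [show d0.u (k + 2 * q) - 2 * d0.u (k + q) + d0.u k =
      (-2 * d0.u (k + q) - 2 * (d0.c * zeta ^ (k + (q : ℤ))).re) +
        (d0.z (k + 2 * q) + 2 * (d0.c * zeta ^ (k + (q : ℤ))).re + d0.u k) + i by
          rw [hi]; ring, g_add_int]
    linarith [(hP _ c1).2.1]
  by_cases c0 : k ∈ Icc (-((q0 + 10 : ℕ) : ℤ)) ((q0 + 10 : ℕ) : ℤ)
  · have hj := mem_Icc.1 c0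
    obtain ⟨i, hi⟩ := d0.u_eq_z h.integral (k + 2 * q)
    obtain ⟨i', hi'⟩ := d0.u_eq_z h.integral (k + q)
    have h1 := hzl k q _ (by omega) he
    have h2 := hzl k (2 * q) (2 * (ms / 100)) (by push_cast; omega)
      ((norm_pow_two_sub q).trans (by linarith))
    rw [show ((2 * q : ℕ) : ℤ) = 2 * (q : ℤ) by push_cast; ring] at h2
    have hy : |((d0.z (k + 2 * q) + 2 * (d0.c * zeta ^ k).re) -
        2 * (d0.z (k + q) + 2 * (d0.c * zeta ^ k).re))| ≤ 5 * (ms / 100) := by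
      rw [abs_le] at h1 h2 ⊢; constructor <;> linarith
    have := g_add_ge (x := d0.u k + 2 * (d0.c * zeta ^ k).re) hy
    rw [show d0.u (k + 2 * q) - 2 * d0.u (k + q) + d0.u k =
      (d0.u k + 2 * (d0.c * zeta ^ k).re) +
        ((d0.z (k + 2 * q) + 2 * (d0.c * zeta ^ k).re) -
          2 * (d0.z (k + q) + 2 * (d0.c * zeta ^ k).re)) + ((i - 2 * i' : ℤ) : ℝ) by
          rw [hi, hi']; push_cast; ring, g_add_int]
    linarith [(hP _ c0).2.2]
  · obtain ⟨a2, i2, e2, b2⟩ := h.small c2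
    obtain ⟨a1, i1, e1, b1⟩ := h.small c1
    obtain ⟨a0, i0, e0, b0⟩ := h.small c0
    rw [e2, e1, e0, show a2 + (i2 : ℝ) - 2 * (a1 + i1) + (a0 + i0) =
      (a2 - 2 * a1 + a0) + ((i2 - 2 * i1 + i0 : ℤ) : ℝ) by push_cast; ring, g_add_int]
    have hy : |a2 - 2 * a1 + a0| ≤ 12 / 100 := by
      rw [abs_le] at *; constructor <;> linarith
    have := g_small hy (by norm_num)
    linarith

lemma SeedBase.valid (h : SeedBase d0 q0) {ms x : ℝ} {q w : ℕ}
    (hcore : ∀ k, ms ≤ g (((d0.up q).up q).u k))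
    (hq : 2 ≤ q) (he : 1 / 100 * (‖zeta ^ q - 1‖ * ‖zeta ^ q - 1‖) ≤ x)
    (hx : x ≤ 1 / 40) (hx0 : 0 < x) (hw : 1 ≤ x * beta ^ w) :
    Valid ((d0.up q).up q) (q0 + 2 * q + w) x ms := by
  have hbq : 3 ≤ beta ^ q := by
    calc (3 : ℝ) ≤ beta ^ 2 := by nlinarith [beta_lb]
      _ ≤ beta ^ q := pow_le_pow_right₀ one_lt_beta.le hq
  have hb0 : beta ≤ beta ^ q0 := le_self_pow₀ one_lt_beta.le (by have := h.pos; omega)
  have hb := beta_lb
  refine ⟨Data.up_integral (Data.up_integral h.integral q) q, ?_, ?_, ?_, ?_, ?_, hx0, hx,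
    fun k _ ↦ hcore k⟩
  · simp only [Data.up, h.s_eq]
    have h1 : (87 / 100 : ℝ) * 2 * 2 ≤ (beta ^ q0 - 1) * (beta ^ q - 1) * (beta ^ q - 1) :=
      mul_le_mul (mul_le_mul (by linarith) (by linarith) (by norm_num) (by linarith))
        (by linarith) (by norm_num) (mul_nonneg (by linarith) (by linarith))
    linarith
  · simp only [Data.up, h.s_eq]
    have h1 : (beta ^ q0 - 1) * (beta ^ q - 1) * (beta ^ q - 1) ≤
        beta ^ q0 * beta ^ q * beta ^ q :=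
      mul_le_mul (mul_le_mul (by linarith) (by linarith) (by linarith) (by linarith))
        (by linarith) (by linarith) (by positivity)
    refine h1.trans ?_
    rw [pow_add, pow_add, two_mul, pow_add]
    have : 0 ≤ beta ^ q0 * (beta ^ q * beta ^ q) := by positivity
    nlinarith
  · simp only [Data.up, abs_mul]
    have : |(beta ^ q)⁻¹ - 1| ≤ 1 := by
      have h1 : (beta ^ q)⁻¹ ≤ 1 := inv_le_one_of_one_le₀ (by linarith)
      have h2 : 0 ≤ (beta ^ q)⁻¹ := by positivity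
      rw [abs_le]; constructor <;> linarith
    exact mul_le_one₀ (mul_le_one₀ h.t_le (abs_nonneg _) this) (abs_nonneg _) this
  · refine hw.trans (mul_le_mul_of_nonneg_left ?_ hx0.le)
    exact pow_le_pow_right₀ one_lt_beta.le (by omega)
  · simp only [Data.up, norm_mul]
    rw [mul_assoc]
    exact (mul_le_mul_of_nonneg_right h.c_le (by positivity)).trans he

/-- Seeds: a uniform lower bound `m1` on the core. -/
lemma seeds : ∃ m1 > 0, m1 ≤ 1 / 2 ∧ ∀ᶠ x in atTop, ∃ d : Data, ∃ L : ℕ,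
    Valid d L (Real.exp (-(1 / 2) * x)) m1 ∧ (L : ℝ) ≤ Real.exp (45 / 100 * x) := by
  obtain ⟨d0, q0, h⟩ := exists_seedBase
  obtain ⟨ms, hms, hms4, hP⟩ := h.profile_lb
  obtain ⟨N, hN⟩ := pow_unbounded_of_one_lt (beta ^ q0 * (100 / ms)) one_lt_beta
  refine ⟨ms, hms, by linarith, ?_⟩
  filter_upwards [eventually_ge_atTop (2 : ℝ),
    eventually_large (N + 3 * (q0 + 10) + 2) (show (0 : ℝ) < 26 / 100 by norm_num),
    exp_small (show -(26 / 100 : ℝ) < 0 by norm_num) (show (0 : ℝ) < ms / 700 by linarith),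
    exp_dom (show -(52 / 100 : ℝ) < -(1 / 2) by norm_num) (49 / 100),
    exp_small (show -(1 / 2 : ℝ) < 0 by norm_num) (show (0 : ℝ) < 1 / 40 by norm_num),
    exp_dom (show (26 / 100 : ℝ) < 45 / 100 by norm_num) 8,
    lin_dom (show (0 : ℝ) < 45 / 100 by norm_num) (show (0 : ℝ) ≤ 2 by norm_num)
      (show (0 : ℝ) ≤ 2 * q0 + 2 by positivity)] with x hx hlarge hη hdelta hδ40 hL1 hL2
  obtain ⟨q, hq0, hqX, he⟩ :=
    dirichlet_exp zeta_norm (show (0 : ℝ) ≤ 26 / 100 by norm_num) (by linarith : (0 : ℝ) ≤ x)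
  have hqN := hlarge q hq0 he
  refine ⟨(d0.up q).up q, q0 + 2 * q + ⌈x⌉₊,
    h.valid (h.core_bound hms hms4 hP hN.le hqN (by linarith)) (by omega) ?_ hδ40
      (Real.exp_pos _) ?_, ?_⟩
  · have h2 : Real.exp (-(52 / 100) * x) =
        Real.exp (-(26 / 100) * x) * Real.exp (-(26 / 100) * x) := by
      rw [← Real.exp_add]; ring_nf
    rw [h2] at hdelta
    refine le_trans ?_ hdelta
    have := mul_le_mul he he (norm_nonneg _) (by positivity)
    linarith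
  · have h1 : Real.exp (x / 2) ≤ beta ^ ⌈x⌉₊ := le_trans
      (Real.exp_le_exp.2 (by linarith [Nat.le_ceil x])) (exp_le_beta_pow _)
    refine le_trans (le_of_eq ?_) (mul_le_mul_of_nonneg_left h1 (Real.exp_pos _).le)
    rw [← Real.exp_add, show -(1 / 2) * x + x / 2 = 0 by ring, Real.exp_zero]
  · have h1 : (⌈x⌉₊ : ℝ) ≤ x + 1 := (Nat.ceil_lt_add_one (by linarith)).le
    push_cast
    linarith

end Vale.Agent.P105
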